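import Vale.Agent.P318.H867.Main

/-! The sparsest cut value and the Goemans-Linial value of Cartesian products. -/

open Finset

set_option linter.unusedSectionVars false

namespace Vale.Agent.P318.H794

open Vale.Agent.P318.H867

/-- points of a Euclidean space indexed by `W` can be moved isometrically to `ℝ^W` -/
theorem exists_euclid {W E : Type*} [Fintype W] [DecidableEq W] [NormedAddCommGroup E]
    [InnerProductSpace ℝ E] (f : W → E) :
    ∃ g : W → EuclideanSpace ℝ W, ∀ a b, ‖g a - g b‖ = ‖f a - f b‖ := by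
  classical
  set S : Submodule ℝ E := Submodule.span ℝ (Set.range f) with hS
  have hfd : FiniteDimensional ℝ S := FiniteDimensional.span_of_finite ℝ (Set.finite_range f)
  have hdim : Module.finrank ℝ S ≤ Fintype.card W := finrank_range_le_card (R := ℝ) f
  let e : Fin (Module.finrank ℝ S) ↪ W :=
    (Fin.castLEEmb hdim).trans (Fintype.equivFin W).symm.toEmbedding
  let b := stdOrthonormalBasis ℝ S
  let T : S →ₗ[ℝ] EuclideanSpace ℝ W :=
    b.toBasis.constr ℝ (fun k => EuclideanSpace.basisFun W ℝ (e k))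
  have hT : Orthonormal ℝ (T ∘ b.toBasis) := by
    have h1 : T ∘ b.toBasis = fun k => EuclideanSpace.basisFun W ℝ (e k) := by
      funext k
      simp only [T, Function.comp_apply, Module.Basis.constr_basis]
    rw [h1]
    exact (EuclideanSpace.basisFun W ℝ).orthonormal.comp e e.injective
  have hb : Orthonormal ℝ b.toBasis := by
    rw [OrthonormalBasis.coe_toBasis]
    exact b.orthonormal
  let L : S →ₗᵢ[ℝ] EuclideanSpace ℝ W := T.isometryOfOrthonormal hb hT
  refine ⟨fun a => L ⟨f a, Submodule.subset_span ⟨a, rfl⟩⟩, fun a c => ?_⟩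
  rw [← map_sub, L.norm_map]
  rfl

theorem negType_of {W E : Type*} [Fintype W] [DecidableEq W] [NormedAddCommGroup E]
    [InnerProductSpace ℝ E] {d : W → W → ℝ} (f : W → E) (hf : ∀ i j, d i j = ‖f i - f j‖ ^ 2)
    (htri : ∀ i j k, d i k ≤ d i j + d j k) : IsNegTypeSemimetric d := by
  obtain ⟨g, hg⟩ := exists_euclid f
  exact ⟨⟨g, fun i j => by rw [hf, hg]⟩, htri⟩

/-- homogeneous form of the relaxation -/
theorem gl_mul_le {W : Type*} [Fintype W] [DecidableEq W] {c : W → W → ℝ}
    (hc : ∀ i j, 0 ≤ c i j) {d : W → W → ℝ} (hd : IsNegTypeSemimetric d) :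
    glValue c * ∑ i, ∑ j, d i j ≤ ∑ i, ∑ j, c i j * d i j := by
  obtain ⟨⟨x, hx⟩, htri⟩ := hd
  have hd0 : ∀ i j, 0 ≤ d i j := fun i j => by rw [hx]; positivity
  have hT0 : 0 ≤ ∑ i, ∑ j, d i j := sum_nonneg fun i _ => sum_nonneg fun j _ => hd0 i j
  have hE0 : 0 ≤ ∑ i, ∑ j, c i j * d i j :=
    sum_nonneg fun i _ => sum_nonneg fun j _ => mul_nonneg (hc i j) (hd0 i j)
  rcases hT0.eq_or_lt with h0 | hpos
  · rw [← h0, mul_zero]; exact hE0
  set T := ∑ i, ∑ j, d i j with hT
  have h2T : 0 < 2 / T := by positivity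
  have hbdd : BddBelow {r : ℝ | ∃ d : W → W → ℝ, IsNegTypeSemimetric d ∧
      (∑ i, ∑ j, d i j) / 2 = 1 ∧ r = (∑ i, ∑ j, c i j * d i j) / 2} := by
    refine ⟨0, ?_⟩
    rintro r ⟨d', ⟨⟨x', hx'⟩, -⟩, -, rfl⟩
    have : 0 ≤ ∑ i, ∑ j, c i j * d' i j :=
      sum_nonneg fun i _ => sum_nonneg fun j _ => mul_nonneg (hc i j) (by rw [hx']; positivity)
    linarith
  have h1 : glValue c ≤ (∑ i, ∑ j, c i j * (2 / T * d i j)) / 2 := by
    refine csInf_le hbdd ⟨fun i j => 2 / T * d i j, ?_, ?_, rfl⟩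
    · refine negType_of (fun i => Real.sqrt (2 / T) • x i) (fun i j => ?_) (fun i j k => ?_)
      · rw [← smul_sub, norm_smul, mul_pow, hx, Real.norm_eq_abs, sq_abs, Real.sq_sqrt h2T.le]
      · rw [← mul_add]
        exact mul_le_mul_of_nonneg_left (htri i j k) h2T.le
    · simp_rw [← mul_sum]
      rw [← hT]
      field_simp
  have h2 : ∑ i, ∑ j, c i j * (2 / T * d i j) = 2 / T * ∑ i, ∑ j, c i j * d i j := by
    rw [mul_sum]
    refine sum_congr rfl fun i _ => ?_
    rw [mul_sum]
    exact sum_congr rfl fun j _ => by ring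
  rw [h2] at h1
  have h3 : glValue c * T ≤ 2 / T * (∑ i, ∑ j, c i j * d i j) / 2 * T :=
    mul_le_mul_of_nonneg_right h1 hpos.le
  refine h3.trans (le_of_eq ?_)
  field_simp

theorem gl_nonneg {W : Type*} [Fintype W] [DecidableEq W] {c : W → W → ℝ}
    (hc : ∀ u v, 0 ≤ c u v) : 0 ≤ glValue c := by
  apply Real.sInf_nonneg
  rintro r ⟨d, ⟨⟨x, hx⟩, -⟩, -, rfl⟩
  have : 0 ≤ ∑ i, ∑ j, c i j * d i j :=
    sum_nonneg fun i _ => sum_nonneg fun j _ => mul_nonneg (hc i j) (by rw [hx]; positivity)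
  linarith

/-- lower bound for the relaxation -/
theorem le_gl {W : Type*} [Fintype W] [DecidableEq W] [Nontrivial W] {c : W → W → ℝ} {r : ℝ}
    (h : ∀ d : W → W → ℝ, IsNegTypeSemimetric d → (∑ i, ∑ j, d i j) / 2 = 1 →
      r ≤ (∑ i, ∑ j, c i j * d i j) / 2) : r ≤ glValue c := by
  apply le_csInf
  · obtain ⟨d, hd, h1⟩ := exists_feasible W
    exact ⟨_, d, hd, h1, rfl⟩
  · rintro q ⟨d, hd, h1, rfl⟩
    exact h d hd h1

section product

variable {ι : Type*} [Fintype ι] [DecidableEq ι] {V : ι → Type*} [∀ i, Fintype (V i)]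
  [∀ i, DecidableEq (V i)]

/-- The Cartesian product of the capacities `c i`: two points of the product which agree outside
the coordinate `i` have capacity `c i (u i) (v i)`, and all other capacities of distinct points
are zero. -/
def prodCap (c : ∀ i, V i → V i → ℝ) (u v : ∀ i, V i) : ℝ :=
  ∑ i, if ∀ j, j ≠ i → u j = v j then c i (u i) (v i) else 0

theorem prodCap_nonneg {c : ∀ i, V i → V i → ℝ} (hc : ∀ i a b, 0 ≤ c i a b) (u v : ∀ i, V i) :
    0 ≤ prodCap c u v := by
  unfold prodCap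
  refine sum_nonneg fun i _ => ?_
  split_ifs
  · exact hc _ _ _
  · exact le_rfl

theorem prodCap_symm {c : ∀ i, V i → V i → ℝ} (hs : ∀ i a b, c i a b = c i b a)
    (u v : ∀ i, V i) : prodCap c u v = prodCap c v u := by
  unfold prodCap
  refine sum_congr rfl fun i _ => ?_
  rw [hs i (u i) (v i)]
  congr 1
  exact propext ⟨fun h j hj => (h j hj).symm, fun h j hj => (h j hj).symm⟩

/-- exchange of one coordinate -/
theorem sum_update (i : ι) (H : (∀ i, V i) → V i → ℝ) :
    ∑ u : ∀ i, V i, ∑ a, H (Function.update u i a) (u i) = ∑ u : ∀ i, V i, ∑ a, H u a := by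
  rw [← Fintype.sum_prod_type', ← Fintype.sum_prod_type']
  let σ : Equiv.Perm ((∀ i, V i) × V i) := Function.Involutive.toPerm
    (fun p => (Function.update p.1 i p.2, p.1 i)) (fun p => by simp)
  exact Equiv.sum_comp σ (fun p => H p.1 p.2)

theorem sum_update_const (i : ι) (H : (∀ i, V i) → ℝ) :
    ∑ u : ∀ i, V i, ∑ a, H (Function.update u i a) = Fintype.card (V i) * ∑ u, H u := by
  rw [sum_update i (fun u _ => H u)]
  simp only [sum_const, card_univ, nsmul_eq_mul]
  rw [mul_sum]

theorem sum_coord (i : ι) (f : V i → ℝ) :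
    (Fintype.card (V i) : ℝ) * ∑ u : ∀ i, V i, f (u i) =
      Fintype.card (∀ i, V i) * ∑ a, f a := by
  have h := sum_update (V := V) i (fun _ a => f a)
  simp only [sum_const, card_univ, nsmul_eq_mul] at h
  rw [← mul_sum] at h
  exact h

/-- exchange of the coordinates in `s` -/
theorem sum_swap (s : Finset ι) (F : (∀ i, V i) → (∀ i, V i) → ℝ) :
    ∑ u : ∀ i, V i, ∑ v : ∀ i, V i, F (s.piecewise v u) (s.piecewise u v) =
      ∑ u : ∀ i, V i, ∑ v : ∀ i, V i, F u v := by
  rw [← Fintype.sum_prod_type', ← Fintype.sum_prod_type']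
  let σ : Equiv.Perm ((∀ i, V i) × (∀ i, V i)) := Function.Involutive.toPerm
    (fun p => (s.piecewise p.2 p.1, s.piecewise p.1 p.2)) (fun p => by
      ext j
      · by_cases hj : j ∈ s <;> simp [hj]
      · by_cases hj : j ∈ s <;> simp [hj])
  exact Equiv.sum_comp σ (fun p => F p.1 p.2)

/-- hybrid argument -/
theorem hybrid {d : (∀ i, V i) → (∀ i, V i) → ℝ} (h0 : ∀ u, d u u = 0)
    (htri : ∀ u v w, d u w ≤ d u v + d v w) (s : Finset ι) :
    ∑ u, ∑ v, d u (s.piecewise v u) ≤
      ∑ i ∈ s, ∑ u : ∀ i, V i, ∑ v : ∀ i, V i, d u (Function.update u i (v i)) := by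
  induction s using Finset.induction_on with
  | empty => simp [h0]
  | insert i s hi ih =>
    rw [sum_insert hi]
    have h1 : ∑ u : ∀ i, V i, ∑ v : ∀ i, V i, d u ((insert i s).piecewise v u) ≤
        ∑ u : ∀ i, V i, ∑ v : ∀ i, V i, (d u (s.piecewise v u) +
          d (s.piecewise v u) (Function.update (s.piecewise v u) i (v i))) := by
      refine sum_le_sum fun u _ => sum_le_sum fun v _ => ?_
      rw [Finset.piecewise_insert]
      exact htri _ _ _
    have h2 : ∑ u : ∀ i, V i, ∑ v : ∀ i, V i,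
        d (s.piecewise v u) (Function.update (s.piecewise v u) i (v i)) =
        ∑ u : ∀ i, V i, ∑ v : ∀ i, V i, d u (Function.update u i (v i)) := by
      rw [← sum_swap s (fun u v => d u (Function.update u i (v i)))]
      refine sum_congr rfl fun u _ => sum_congr rfl fun v _ => ?_
      rw [Finset.piecewise_eq_of_notMem s u v hi]
    simp only [sum_add_distrib] at h1
    rw [h2] at h1
    linarith

/-- sums against the product capacity -/
theorem sum_prodCap (c : ∀ i, V i → V i → ℝ) (d : (∀ i, V i) → (∀ i, V i) → ℝ) :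
    ∑ u, ∑ v, prodCap c u v * d u v =
      ∑ i, ∑ u : ∀ i, V i, ∑ b, c i (u i) b * d u (Function.update u i b) := by
  have h1 : ∀ u : ∀ i, V i, ∀ i, ∑ v : ∀ i, V i,
      (if ∀ j, j ≠ i → u j = v j then c i (u i) (v i) else 0) * d u v =
        ∑ b, c i (u i) b * d u (Function.update u i b) := by
    intro u i
    let φ : V i ↪ (∀ i, V i) := ⟨Function.update u i, Function.update_injective u i⟩
    rw [← Finset.sum_subset (subset_univ (univ.map φ)), Finset.sum_map]
    · refine sum_congr rfl fun b _ => ?_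
      have h2 : ∀ j, j ≠ i → u j = φ b j := fun j hj => (Function.update_of_ne hj b u).symm
      rw [if_pos h2]
      simp only [φ, Function.Embedding.coeFn_mk, Function.update_self]
    · intro v _ hv
      rw [if_neg, zero_mul]
      intro h2
      apply hv
      rw [mem_map]
      refine ⟨v i, mem_univ _, ?_⟩
      funext j
      by_cases hj : j = i
      · subst hj
        simp [φ]
      · simp only [φ, Function.Embedding.coeFn_mk, Function.update_of_ne hj]
        exact h2 j hj
  calc ∑ u, ∑ v, prodCap c u v * d u v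
      = ∑ u : ∀ i, V i, ∑ i, ∑ v : ∀ i, V i,
          (if ∀ j, j ≠ i → u j = v j then c i (u i) (v i) else 0) * d u v := by
        refine sum_congr rfl fun u _ => ?_
        rw [sum_comm]
        refine sum_congr rfl fun v _ => ?_
        rw [prodCap, sum_mul]
    _ = ∑ u : ∀ i, V i, ∑ i, ∑ b, c i (u i) b * d u (Function.update u i b) :=
        sum_congr rfl fun u _ => sum_congr rfl fun i _ => h1 u i
    _ = _ := sum_comm

/-- **Tensorisation of Poincare inequalities for semimetrics.** -/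
theorem tensor {c : ∀ i, V i → V i → ℝ} {d : (∀ i, V i) → (∀ i, V i) → ℝ}
    (h0 : ∀ u, d u u = 0) (hnn : ∀ u v, 0 ≤ d u v) (htri : ∀ u v w, d u w ≤ d u v + d v w)
    {m : ι → ℝ} (hfac : ∀ i u, m i * ∑ a, ∑ b, d (Function.update u i a) (Function.update u i b) ≤
      ∑ a, ∑ b, c i a b * d (Function.update u i a) (Function.update u i b))
    {m0 : ℝ} (hm0 : 0 ≤ m0) (hm : ∀ i, m0 ≤ Fintype.card (V i) * m i) [∀ i, Nonempty (V i)] :
    m0 * ∑ u, ∑ v, d u v ≤ Fintype.card (∀ i, V i) * ∑ u, ∑ v, prodCap c u v * d u v := by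
  have hn0 : (0 : ℝ) < Fintype.card (∀ i, V i) := by exact_mod_cast Fintype.card_pos
  have h1 : ∑ u, ∑ v, d u v ≤
      ∑ i, ∑ u : ∀ i, V i, ∑ v : ∀ i, V i, d u (Function.update u i (v i)) := by
    have := hybrid h0 htri (univ : Finset ι)
    simpa only [Finset.piecewise_univ] using this
  have h2 : ∀ i, m0 * ∑ u : ∀ i, V i, ∑ v : ∀ i, V i, d u (Function.update u i (v i)) ≤
      Fintype.card (∀ i, V i) *
        ∑ u : ∀ i, V i, ∑ b, c i (u i) b * d u (Function.update u i b) := by
    intro i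
    have hi0 : (0 : ℝ) < Fintype.card (V i) := by exact_mod_cast Fintype.card_pos
    set ni : ℝ := (Fintype.card (V i) : ℝ) with hni
    set n : ℝ := (Fintype.card (∀ i, V i) : ℝ) with hn
    set X := ∑ u : ∀ i, V i, ∑ b, d u (Function.update u i b) with hX
    set Y := ∑ u : ∀ i, V i, ∑ b, c i (u i) b * d u (Function.update u i b) with hY
    have hX0 : 0 ≤ X := sum_nonneg fun u _ => sum_nonneg fun b _ => hnn _ _
    have e1 : ni * ∑ u : ∀ i, V i, ∑ v : ∀ i, V i, d u (Function.update u i (v i)) = n * X := by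
      rw [hX, mul_sum, mul_sum]
      exact sum_congr rfl fun u _ => sum_coord i (fun b => d u (Function.update u i b))
    have e2 : ∑ u : ∀ i, V i, ∑ a, ∑ b, d (Function.update u i a) (Function.update u i b) =
        ni * X := by
      have := sum_update_const (V := V) i (fun w => ∑ b, d w (Function.update w i b))
      simpa only [Function.update_idem] using this
    have e3 : ∑ u : ∀ i, V i, ∑ a, ∑ b,
        c i a b * d (Function.update u i a) (Function.update u i b) = ni * Y := by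
      have := sum_update_const (V := V) i (fun w => ∑ b, c i (w i) b * d w (Function.update w i b))
      simpa only [Function.update_idem, Function.update_self] using this
    have e4 : m i * (ni * X) ≤ ni * Y := by
      rw [← e2, ← e3, mul_sum]
      exact sum_le_sum fun u _ => hfac i u
    have e5 : m0 * (n * X) ≤ ni * (n * Y) := by
      calc m0 * (n * X) ≤ (ni * m i) * (n * X) :=
            mul_le_mul_of_nonneg_right (hm i) (mul_nonneg hn0.le hX0)
        _ = n * (m i * (ni * X)) := by ring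
        _ ≤ n * (ni * Y) := mul_le_mul_of_nonneg_left e4 hn0.le
        _ = _ := by ring
    rw [← e1] at e5
    refine le_of_mul_le_mul_left ?_ hi0
    calc ni * (m0 * ∑ u : ∀ i, V i, ∑ v : ∀ i, V i, d u (Function.update u i (v i)))
        = m0 * (ni * ∑ u : ∀ i, V i, ∑ v : ∀ i, V i, d u (Function.update u i (v i))) := by ring
      _ ≤ ni * (n * Y) := e5
  rw [sum_prodCap]
  calc m0 * ∑ u, ∑ v, d u v
      ≤ m0 * ∑ i, ∑ u : ∀ i, V i, ∑ v : ∀ i, V i, d u (Function.update u i (v i)) :=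
        mul_le_mul_of_nonneg_left h1 hm0
    _ = ∑ i, m0 * ∑ u : ∀ i, V i, ∑ v : ∀ i, V i, d u (Function.update u i (v i)) := mul_sum _ _ _
    _ ≤ ∑ i, Fintype.card (∀ i, V i) *
        ∑ u : ∀ i, V i, ∑ b, c i (u i) b * d u (Function.update u i b) :=
        sum_le_sum fun i _ => h2 i
    _ = _ := by rw [← mul_sum]

/-- cylinder semimetrics: total -/
theorem cyl_total (i : ι) (e : V i → V i → ℝ) :
    (Fintype.card (V i) : ℝ) ^ 2 * ∑ u : ∀ i, V i, ∑ v : ∀ i, V i, e (u i) (v i) =
      (Fintype.card (∀ i, V i) : ℝ) ^ 2 * ∑ a, ∑ b, e a b := by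
  have h1 : ∀ u : ∀ i, V i, (Fintype.card (V i) : ℝ) * ∑ v : ∀ i, V i, e (u i) (v i) =
      Fintype.card (∀ i, V i) * ∑ b, e (u i) b := fun u => sum_coord i (fun b => e (u i) b)
  have h2 := sum_coord (V := V) i (fun a => ∑ b, e a b)
  rw [pow_two, mul_assoc, mul_sum]
  simp_rw [h1]
  rw [← mul_sum, mul_left_comm, h2]
  ring

/-- cylinder semimetrics: capacity -/
theorem cyl_cap (c : ∀ i, V i → V i → ℝ) (i : ι) (e : V i → V i → ℝ) (he : ∀ a, e a a = 0) :
    (Fintype.card (V i) : ℝ) * ∑ u : ∀ i, V i, ∑ v : ∀ i, V i, prodCap c u v * e (u i) (v i) =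
      (Fintype.card (∀ i, V i) : ℝ) * ∑ a, ∑ b, c i a b * e a b := by
  rw [sum_prodCap c (fun u v => e (u i) (v i)), Finset.sum_eq_single i]
  · simp only [Function.update_self]
    exact sum_coord (V := V) i (fun a => ∑ b, c i a b * e a b)
  · intro j _ hj
    refine sum_eq_zero fun u _ => sum_eq_zero fun b _ => ?_
    rw [Function.update_of_ne hj.symm, he, mul_zero]
  · intro h
    exact absurd (mem_univ i) h

/-- lower bound for the relaxation of a product -/
theorem gl_prod_ge [Nonempty ι] [∀ i, Nontrivial (V i)] {c : ∀ i, V i → V i → ℝ}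
    (hc : ∀ i a b, 0 ≤ c i a b) {m0 : ℝ} (hm0 : 0 ≤ m0)
    (hm : ∀ i, m0 ≤ (Fintype.card (V i) : ℝ) * glValue (c i)) :
    m0 ≤ (Fintype.card (∀ i, V i) : ℝ) * glValue (prodCap c) := by
  have hn0 : (0 : ℝ) < Fintype.card (∀ i, V i) := by exact_mod_cast Fintype.card_pos
  have hnt : Nontrivial (∀ i, V i) := Pi.nontrivial_at (Classical.arbitrary ι)
  rw [← div_le_iff₀' hn0]
  apply le_gl
  rintro d ⟨⟨x, hx⟩, htri⟩ h1
  have h2 : m0 * ∑ u, ∑ v, d u v ≤
      (Fintype.card (∀ i, V i) : ℝ) * ∑ u, ∑ v, prodCap c u v * d u v := by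
    refine tensor (fun u => by rw [hx]; simp) (fun u v => by rw [hx]; positivity) htri
      (m := fun i => glValue (c i)) (fun i u => ?_) hm0 hm
    exact gl_mul_le (hc i) (d := fun a b => d (Function.update u i a) (Function.update u i b))
      (negType_of (fun a => x (Function.update u i a)) (fun a b => hx _ _)
        fun a b e => htri _ _ _)
  have h3 : ∑ u, ∑ v, d u v = 2 := by linarith
  rw [h3] at h2
  rw [div_le_iff₀ hn0]
  linarith

/-- upper bound for the relaxation of a product -/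
theorem gl_prod_le [Nonempty ι] [∀ i, Nontrivial (V i)] {c : ∀ i, V i → V i → ℝ}
    (hc : ∀ i a b, 0 ≤ c i a b) (i : ι) :
    (Fintype.card (∀ i, V i) : ℝ) * glValue (prodCap c) ≤
      (Fintype.card (V i) : ℝ) * glValue (c i) := by
  have hn0 : (0 : ℝ) < Fintype.card (∀ i, V i) := by exact_mod_cast Fintype.card_pos
  have hi0 : (0 : ℝ) < Fintype.card (V i) := by exact_mod_cast Fintype.card_pos
  rw [← div_le_iff₀' hi0]
  apply le_gl
  rintro e ⟨⟨x, hx⟩, htri⟩ h1
  have h2 := gl_mul_le (prodCap_nonneg hc) (d := fun u v => e (u i) (v i))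
    (negType_of (fun u : ∀ i, V i => x (u i)) (fun a b => hx _ _) fun a b e => htri _ _ _)
  have h3 := cyl_total (V := V) i e
  have h4 := cyl_cap c i e (fun a => by rw [hx]; simp)
  have h5 : ∑ a, ∑ b, e a b = 2 := by linarith
  set ni : ℝ := (Fintype.card (V i) : ℝ) with hni
  set n : ℝ := (Fintype.card (∀ i, V i) : ℝ) with hn
  set T := ∑ u : ∀ i, V i, ∑ v : ∀ i, V i, e (u i) (v i) with hT
  set E := ∑ u : ∀ i, V i, ∑ v : ∀ i, V i, prodCap c u v * e (u i) (v i) with hE
  set Y := ∑ a, ∑ b, c i a b * e a b with hY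
  rw [h5] at h3
  have h6 : glValue (prodCap c) * (ni ^ 2 * T) ≤ ni * (ni * E) := by
    have := mul_le_mul_of_nonneg_left h2 (by positivity : 0 ≤ ni ^ 2)
    calc glValue (prodCap c) * (ni ^ 2 * T) = ni ^ 2 * (glValue (prodCap c) * T) := by ring
      _ ≤ ni ^ 2 * E := this
      _ = _ := by ring
  rw [h3, h4] at h6
  have h7 : n * (2 * n * glValue (prodCap c)) ≤ n * (ni * Y) := by
    calc n * (2 * n * glValue (prodCap c)) = glValue (prodCap c) * (n ^ 2 * 2) := by ring
      _ ≤ ni * (n * Y) := h6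
      _ = _ := by ring
  have h8 := le_of_mul_le_mul_left h7 hn0
  rw [div_le_iff₀ hi0]
  linarith

/-- upper bound for the sparsest cut of a product -/
theorem phi_prod_le [Nonempty ι] [∀ i, Nontrivial (V i)] {c : ∀ i, V i → V i → ℝ}
    (hc : ∀ i a b, 0 ≤ c i a b) (hs : ∀ i a b, c i a b = c i b a) (i : ι) :
    (Fintype.card (∀ i, V i) : ℝ) * phi (prodCap c) ≤
      (Fintype.card (V i) : ℝ) * phi (c i) := by
  have hn0 : (0 : ℝ) < Fintype.card (∀ i, V i) := by exact_mod_cast Fintype.card_pos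
  have hi0 : (0 : ℝ) < Fintype.card (V i) := by exact_mod_cast Fintype.card_pos
  rw [← div_le_iff₀' hi0]
  apply le_phi
  intro S _ _
  have h2 := coarea (prodCap_nonneg hc) (prodCap_symm hs) (fun u : ∀ i, V i => ind S (u i))
  have h3 := cyl_total (V := V) i (fun a b => |ind S a - ind S b|)
  have h4 := cyl_cap c i (fun a b => |ind S a - ind S b|) (fun a => by simp)
  rw [card_ind_sub] at h3
  rw [sum_ind_sub (c i) (hs i)] at h4
  set ni : ℝ := (Fintype.card (V i) : ℝ) with hni
  set n : ℝ := (Fintype.card (∀ i, V i) : ℝ) with hn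
  set T := ∑ u : ∀ i, V i, ∑ v : ∀ i, V i, |ind S (u i) - ind S (v i)| with hT
  set E := ∑ u : ∀ i, V i, ∑ v : ∀ i, V i, prodCap c u v * |ind S (u i) - ind S (v i)| with hE
  have h6 : phi (prodCap c) * (ni ^ 2 * T) ≤ ni * (ni * E) := by
    have := mul_le_mul_of_nonneg_left h2 (by positivity : 0 ≤ ni ^ 2)
    calc phi (prodCap c) * (ni ^ 2 * T) = ni ^ 2 * (phi (prodCap c) * T) := by ring
      _ ≤ ni ^ 2 * E := this
      _ = _ := by ring
  rw [h3, h4] at h6
  set Z := (S.card : ℝ) * ((Sᶜ).card : ℝ) with hZ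
  have h7 : n * (2 * n * phi (prodCap c) * Z) ≤ n * (2 * ni * cutCap (c i) S) := by
    calc n * (2 * n * phi (prodCap c) * Z) = phi (prodCap c) * (n ^ 2 * (2 * Z)) := by ring
      _ ≤ ni * (n * (2 * cutCap (c i) S)) := h6
      _ = _ := by ring
  have h8 := le_of_mul_le_mul_left h7 hn0
  rw [div_mul_eq_mul_div, div_le_iff₀ hi0]
  linarith

/-- lower bound for the sparsest cut of a product -/
theorem phi_prod_ge [Nonempty ι] [∀ i, Nontrivial (V i)] {c : ∀ i, V i → V i → ℝ}
    (hc : ∀ i a b, 0 ≤ c i a b) (hs : ∀ i a b, c i a b = c i b a) {m0 : ℝ} (hm0 : 0 ≤ m0)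
    (hm : ∀ i, m0 ≤ (Fintype.card (V i) : ℝ) * phi (c i)) :
    m0 ≤ (Fintype.card (∀ i, V i) : ℝ) * phi (prodCap c) := by
  have hn0 : (0 : ℝ) < Fintype.card (∀ i, V i) := by exact_mod_cast Fintype.card_pos
  have hnt : Nontrivial (∀ i, V i) := Pi.nontrivial_at (Classical.arbitrary ι)
  rw [← div_le_iff₀' hn0]
  apply le_phi
  intro S _ _
  have h2 : m0 * ∑ u : ∀ i, V i, ∑ v, |ind S u - ind S v| ≤
      (Fintype.card (∀ i, V i) : ℝ) * ∑ u, ∑ v, prodCap c u v * |ind S u - ind S v| := by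
    refine tensor (d := fun u v => |ind S u - ind S v|) (fun u => by simp)
      (fun u v => abs_nonneg _) (fun u v w => abs_sub_le _ _ _)
      (m := fun i => phi (c i)) (fun i u => ?_) hm0 hm
    exact coarea (hc i) (hs i) (fun a => ind S (Function.update u i a))
  rw [card_ind_sub, sum_ind_sub (prodCap c) (prodCap_symm hs)] at h2
  rw [div_mul_eq_mul_div, div_le_iff₀ hn0]
  linarith

/-- exact formulas for products -/
theorem prod_formulas [Nonempty ι] [∀ i, Nontrivial (V i)] {c : ∀ i, V i → V i → ℝ}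
    (hc : ∀ i a b, 0 ≤ c i a b) (hs : ∀ i a b, c i a b = c i b a) :
    (Fintype.card (∀ i, V i) : ℝ) * phi (prodCap c) =
        ⨅ i, (Fintype.card (V i) : ℝ) * phi (c i) ∧
      (Fintype.card (∀ i, V i) : ℝ) * glValue (prodCap c) =
        ⨅ i, (Fintype.card (V i) : ℝ) * glValue (c i) := by
  have hp : ∀ i, 0 ≤ (Fintype.card (V i) : ℝ) * phi (c i) := fun i =>
    mul_nonneg (by positivity) (phi_nonneg (hc i))
  have hg : ∀ i, 0 ≤ (Fintype.card (V i) : ℝ) * glValue (c i) := fun i =>
    mul_nonneg (by positivity) (gl_nonneg (hc i))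
  constructor
  · apply le_antisymm
    · exact le_ciInf fun i => phi_prod_le hc hs i
    · exact phi_prod_ge hc hs (le_ciInf hp) fun i => ciInf_le (Set.finite_range _).bddBelow i
  · apply le_antisymm
    · exact le_ciInf fun i => gl_prod_le hc i
    · exact gl_prod_ge hc (le_ciInf hg) fun i => ciInf_le (Set.finite_range _).bddBelow i

/-- the gap of a product is at most the largest gap of a factor -/
theorem gap_prod [Nonempty ι] [∀ i, Nontrivial (V i)] {c : ∀ i, V i → V i → ℝ}
    (hc : ∀ i a b, 0 ≤ c i a b) (hs : ∀ i a b, c i a b = c i b a) {K : ℝ}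
    (hK : ∀ i, phi (c i) ≤ K * glValue (c i)) : phi (prodCap c) ≤ K * glValue (prodCap c) := by
  have hn0 : (0 : ℝ) < Fintype.card (∀ i, V i) := by exact_mod_cast Fintype.card_pos
  obtain ⟨h1, h2⟩ := prod_formulas hc hs
  obtain ⟨i, hi⟩ := exists_eq_ciInf_of_finite
    (f := fun i => (Fintype.card (V i) : ℝ) * glValue (c i))
  have h3 := phi_prod_le hc hs i
  have hi0 : (0 : ℝ) ≤ Fintype.card (V i) := by positivity
  have h4 := mul_le_mul_of_nonneg_left (hK i) hi0
  refine le_of_mul_le_mul_left ?_ hn0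
  calc (Fintype.card (∀ i, V i) : ℝ) * phi (prodCap c)
      ≤ (Fintype.card (V i) : ℝ) * (K * glValue (c i)) := h3.trans h4
    _ = K * ((Fintype.card (V i) : ℝ) * glValue (c i)) := by ring
    _ = K * ((Fintype.card (∀ i, V i) : ℝ) * glValue (prodCap c)) := by rw [h2, ← hi]
    _ = _ := by ring

end product

end Vale.Agent.P318.H794
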