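import Vale.Agent.P318.H794.Parts

/-! The random character on a cluster of orbits. -/

open Finset

set_option linter.unusedSectionVars false

namespace Vale.Agent.P318.H794

open Vale.Agent.P318.H867

variable {V G I : Type*} [Fintype V] [DecidableEq V] [AddCommGroup G] [Fintype G] [DecidableEq G]
  [AddAction G V] [Fintype I] [DecidableEq I]

/-- clusters of orbits with base points `h i +ᵥ y i` -/
structure Clus (D : V → V → ℝ) (y : I → V) (δ k : ℝ) (comp : I → I) (h : I → G) (io : V → I)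
    (go : V → G) : Prop where
  a1 : ∀ i j, comp i = comp j → D (h i +ᵥ y i) (h j +ᵥ y j) ≤ k * δ
  b1 : ∀ i j, comp i ≠ comp j → ∀ g : G, δ < D (y i) (g +ᵥ y j)
  c1 : ∀ i j, i ≠ j → comp i = comp j → ∀ g : G,
    D (h i +ᵥ y i) (h j +ᵥ y j) ≤ k * D (y i) (g +ᵥ y j)
  hv : ∀ v, v = go v +ᵥ y (io v)

namespace Clus

variable {D : V → V → ℝ} {y : I → V} {δ k : ℝ} {comp : I → I} {h : I → G} {io : V → I} {go : V → G}

theorem far (cl : Clus D y δ k comp h io go) (hD : InvMetric G D) {u v : V}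
    (huv : comp (io u) ≠ comp (io v)) : δ < D u v := by
  have h1 := cl.b1 _ _ huv (go v - go u)
  have h2 : D (y (io u)) ((go v - go u) +ᵥ y (io v)) = D u v := by
    rw [← hD.inv (go u), ← add_vadd, add_sub_cancel, ← cl.hv u, ← cl.hv v]
  rw [h2] at h1
  exact h1

theorem inv (cl : Clus D y δ k comp h io go) (hD : InvMetric G D) (hδ : 0 < δ) (g : G) (u : V) :
    comp (io (g +ᵥ u)) = comp (io u) := by
  by_contra hne
  have h1 := cl.b1 _ _ hne (g + go u - go (g +ᵥ u))
  have h2 : D (y (io (g +ᵥ u))) ((g + go u - go (g +ᵥ u)) +ᵥ y (io u)) = 0 := by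
    rw [← hD.inv (go (g +ᵥ u)), ← add_vadd, add_sub_cancel, ← cl.hv (g +ᵥ u), add_vadd,
      ← cl.hv u, hD.self]
  rw [h2] at h1
  linarith

theorem base (cl : Clus D y δ k comp h io go) (v : V) :
    v = (go v - h (io v)) +ᵥ (h (io v) +ᵥ y (io v)) := by
  rw [← add_vadd, sub_add_cancel]
  exact cl.hv v

theorem close (cl : Clus D y δ k comp h io go) (hD : InvMetric G D) (hk : 0 ≤ k) {u v : V}
    (huv : comp (io v) = comp (io u)) (g : G) :
    D (h (io v) +ᵥ y (io v)) (h (io u) +ᵥ y (io u)) ≤ k * D v (g +ᵥ u) := by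
  by_cases hi : io v = io u
  · rw [hi, hD.self]
    exact mul_nonneg hk (hD.nonneg _ _)
  · have h1 := cl.c1 _ _ hi huv (g + go u - go v)
    have h2 : D (y (io v)) ((g + go u - go v) +ᵥ y (io u)) = D v (g +ᵥ u) := by
      rw [← hD.inv (go v), ← add_vadd, add_sub_cancel, ← cl.hv v, add_vadd, ← cl.hv u]
    rw [h2] at h1
    exact h1

end Clus

variable {D : V → V → ℝ} {y : I → V} {δ k : ℝ} {comp : I → I} {h : I → G} {io : V → I} {go : V → G}

/-- the function of the character `χ` on the cluster `q0` -/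
noncomputable def fchi (comp : I → I) (h : I → G) (io : V → I) (go : V → G) (q0 : I)
    (χ : AddChar G ℂ) (v : V) : ℂ :=
  if comp (io v) = q0 then χ (go v - h (io v)) else 0

/-- a character of positive weight is trivial on translations by zero distance -/
theorem char_one {b : AddChar G ℂ → ℝ} (hb0 : ∀ χ, 0 ≤ b χ) {χ : AddChar G ℂ} (hbpos : 0 < b χ)
    {t : G} (h : ∑ χ, b χ * Q χ t ≤ 0) : χ t = 1 := by
  have h2 : b χ * Q χ t ≤ 0 :=
    (single_le_sum (f := fun χ => b χ * Q χ t)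
      (fun ψ _ => mul_nonneg (hb0 ψ) (Q_nonneg ψ t)) (mem_univ χ)).trans h
  have h3 : Q χ t ≤ 0 := by
    by_contra hcon
    push Not at hcon
    have := mul_pos hbpos hcon
    linarith
  unfold Q at h3
  have h4 : ‖1 - χ t‖ = 0 := by
    have := norm_nonneg (1 - χ t); nlinarith
  rw [norm_eq_zero, sub_eq_zero] at h4
  exact h4.symm

theorem fchi_equi (hD : InvMetric G D) (cl : Clus D y δ k comp h io go) (hk0 : 0 ≤ k)
    (hδ : 0 < δ) (q0 : I) {b : AddChar G ℂ → ℝ} (hb0 : ∀ χ, 0 ≤ b χ)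
    (hbN : ∀ i, comp i = q0 → ∀ g : G,
      ∑ χ, b χ * Q χ g ≤ D (h i +ᵥ y i) (g +ᵥ (h i +ᵥ y i)))
    {χ : AddChar G ℂ} (hbpos : 0 < b χ) (g : G) (u : V) :
    fchi comp h io go q0 χ (g +ᵥ u) = χ g * fchi comp h io go q0 χ u := by
  have hci := cl.inv hD hδ g u
  unfold fchi
  by_cases hu : comp (io u) = q0
  · rw [if_pos hu, if_pos (hci.trans hu), ← AddChar.map_add_eq_mul]
    set p := g + (go u - h (io u)) with hp
    set p' := go (g +ᵥ u) - h (io (g +ᵥ u)) with hp'
    have h1 : χ (p' - p) = 1 := by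
      apply char_one hb0 hbpos
      refine (hbN (io u) hu _).trans ?_
      have e1 : D (h (io u) +ᵥ y (io u)) ((p' - p) +ᵥ (h (io u) +ᵥ y (io u))) =
          D (p +ᵥ (h (io u) +ᵥ y (io u))) (p' +ᵥ (h (io u) +ᵥ y (io u))) := by
        rw [← hD.inv p, ← add_vadd p (p' - p), add_sub_cancel]
      have e2 : p +ᵥ (h (io u) +ᵥ y (io u)) = p' +ᵥ (h (io (g +ᵥ u)) +ᵥ y (io (g +ᵥ u))) := by
        rw [hp, hp', add_vadd, ← cl.base u, ← cl.base (g +ᵥ u)]
      rw [e1, e2, hD.inv]
      have e3 := cl.close hD hk0 hci g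
      rw [hD.self, mul_zero] at e3
      exact e3
    have h2 : χ p' = χ p * χ (p' - p) := by
      rw [← AddChar.map_add_eq_mul, add_sub_cancel]
    rw [h2, h1, mul_one]
  · rw [if_neg hu, if_neg (by rw [hci]; exact hu), mul_zero]

/-- the translations used by the edges at the orbit `i` take few values at the characters of
positive weight -/
theorem exists_P {c : V → V → ℝ} (hinv : ∀ (g : G) u v, c (g +ᵥ u) (g +ᵥ v) = c u v)
    (hD : InvMetric G D) (cl : Clus D y δ k comp h io go) (hk0 : 0 ≤ k)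
    (hδ : 0 < δ) (q0 : I) {b : AddChar G ℂ → ℝ} (hb0 : ∀ χ, 0 ≤ b χ)
    (hbN : ∀ i, comp i = q0 → ∀ g : G,
      ∑ χ, b χ * Q χ g ≤ D (h i +ᵥ y i) (g +ᵥ (h i +ᵥ y i)))
    {M : ℕ} (hM : ∀ u, (univ.filter (fun v => c u v ≠ 0)).card ≤ M) (i : I) :
    ∃ P : Finset G, P.card ≤ M ∧ ∀ u v, c u v ≠ 0 → comp (io u) = q0 → comp (io v) = q0 →
      io u = i → ∃ p ∈ P, ∀ χ, 0 < b χ → χ ((go v - h (io v)) - (go u - h (io u))) = χ p := by
  refine ⟨(univ.filter (fun v => c (h i +ᵥ y i) v ≠ 0)).image (fun v => go v - h (io v)),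
    card_image_le.trans (hM _), ?_⟩
  intro u v huv hu hv hi
  set p := go u - h (io u) with hp
  set v' := (-p) +ᵥ v with hv'
  have hvv : p +ᵥ v' = v := by rw [hv', vadd_neg_vadd]
  have hub : u = p +ᵥ (h i +ᵥ y i) := by rw [hp, ← hi]; exact cl.base u
  have hc' : c (h i +ᵥ y i) v' ≠ 0 := by
    rw [← hinv p, hvv, ← hub]; exact huv
  refine ⟨go v' - h (io v'), mem_image.2 ⟨v', by simpa using hc', rfl⟩, ?_⟩
  intro χ hχ
  have h1 := fchi_equi hD cl hk0 hδ q0 hb0 hbN hχ p v'
  rw [hvv] at h1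
  have hv'q : comp (io v') = q0 := by
    have := cl.inv hD hδ p v'
    rw [hvv] at this
    rw [← this]; exact hv
  simp only [fchi, if_pos hv, if_pos hv'q] at h1
  have h2 : χ p ≠ 0 := by
    intro h0
    have := χ.norm_apply p
    rw [h0] at this
    simp at this
  have h3 : χ (go v - h (io v)) = χ p * χ ((go v - h (io v)) - p) := by
    rw [← AddChar.map_add_eq_mul, add_sub_cancel]
  rw [h3] at h1
  exact mul_left_cancel₀ h2 h1

theorem char_part {c : V → V → ℝ} (hc : ∀ u v, 0 ≤ c u v) (hs : ∀ u v, c u v = c v u)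
    (hD : InvMetric G D) (cl : Clus D y δ k comp h io go) (hk1 : 1 ≤ k) (hδ : 0 < δ) (q0 : I)
    {b b' : AddChar G ℂ → ℝ} (hb'0 : ∀ χ, 0 ≤ b' χ) (hb'le : ∀ χ, b' χ ≤ b χ) (hb00 : b 0 = 0)
    (hbN : ∀ i, comp i = q0 → ∀ g : G,
      ∑ χ, b χ * Q χ g ≤ D (h i +ᵥ y i) (g +ᵥ (h i +ᵥ y i)))
    {R' : ℝ} (hR0 : 0 ≤ R')
    (hR : ∀ u v, c u v ≠ 0 → comp (io u) = q0 → comp (io v) = q0 →
      ∑ χ, b' χ * ‖1 - χ ((go v - h (io v)) - (go u - h (io u)))‖ ≤
        R' * D (h (io u) +ᵥ y (io u))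
          (((go v - h (io v)) - (go u - h (io u))) +ᵥ (h (io u) +ᵥ y (io u)))) :
    (∑ χ, b' χ) * (phi c * ((univ.filter (fun v => comp (io v) = q0)).card : ℝ) ^ 2) ≤
      Real.sqrt 2 * (((∑ χ, b' χ) / δ + 2 * k * R') * ∑ u, ∑ v, c u v * D u v) := by
  set W := univ.filter (fun v => comp (io v) = q0) with hW
  set B' := ∑ χ, b' χ with hB'
  have hb0 : ∀ χ, 0 ≤ b χ := fun χ => (hb'0 χ).trans (hb'le χ)
  have hB'0 : 0 ≤ B' := sum_nonneg fun χ _ => hb'0 χ
  have hmemW : ∀ v, v ∈ W ↔ comp (io v) = q0 := fun v => by simp [hW]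
  have hz1 : ∀ (χ : AddChar G ℂ) (g : G), ‖χ g‖ = 1 := fun χ g => χ.norm_apply g
  have hk0 : 0 ≤ k := by linarith
  set F := fchi comp h io go q0 with hF
  have hF1 : ∀ χ v, v ∈ W → F χ v = χ (go v - h (io v)) := fun χ v hv => by
    simp only [hF, fchi, if_pos ((hmemW v).1 hv)]
  have hF0 : ∀ χ v, v ∉ W → F χ v = 0 := fun χ v hv => by
    rw [hmemW] at hv
    simp only [hF, fchi, if_neg hv]
  -- each character
  have hchar : ∀ χ, b' χ * (phi c * (W.card : ℝ) ^ 2) ≤
      Real.sqrt 2 * ∑ u, ∑ v, c u v * (b' χ * ‖F χ u - F χ v‖) := by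
    intro χ
    rcases (hb'0 χ).eq_or_lt with h0 | hpos
    · rw [← h0]; simp
    have hbpos : 0 < b χ := hpos.trans_le (hb'le χ)
    have hχ0 : χ ≠ 0 := by
      rintro rfl
      rw [hb00] at hbpos
      exact lt_irrefl _ hbpos
    have hequi : ∀ (g : G) u, F χ (g +ᵥ u) = χ g * F χ u := fun g u =>
      fchi_equi hD cl hk0 hδ q0 hb0 hbN hbpos g u
    have hsum : ∑ u, F χ u = 0 := by
      obtain ⟨g0, hg0⟩ : ∃ g0, χ g0 ≠ 1 := by
        by_contra hcon
        push Not at hcon
        apply hχ0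
        ext g
        rw [hcon g]; simp
      have h1 : ∑ u, F χ (g0 +ᵥ u) = ∑ u, F χ u :=
        Equiv.sum_comp (AddAction.toPerm g0) (fun u => F χ u)
      simp_rw [hequi] at h1
      rw [← mul_sum] at h1
      have h2 : (χ g0 - 1) * ∑ u, F χ u = 0 := by rw [sub_mul, h1, one_mul, sub_self]
      rcases mul_eq_zero.1 h2 with h3 | h3
      · exact absurd (sub_eq_zero.1 h3) hg0
      · exact h3
    have h1 := spread (f := F χ) (W := W) (fun u hu => by rw [hF1 χ u hu]; exact hz1 χ _)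
      (fun u hu => hF0 χ u hu) hsum
    have h2 := coarea_complex hc hs (F χ)
    have h3 := mul_le_mul_of_nonneg_left h1 (phi_nonneg hc)
    calc b' χ * (phi c * (W.card : ℝ) ^ 2) ≤
          b' χ * (Real.sqrt 2 * ∑ u, ∑ v, c u v * ‖F χ u - F χ v‖) :=
          mul_le_mul_of_nonneg_left (h3.trans h2) hpos.le
      _ = _ := by
        rw [mul_left_comm, mul_sum]
        congr 1
        apply sum_congr rfl; intro u _
        rw [mul_sum]
        apply sum_congr rfl; intro v _
        ring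
  -- each pair
  have hpair : ∀ u v, c u v ≠ 0 →
      ∑ χ, b' χ * ‖F χ u - F χ v‖ ≤ (B' / δ + 2 * k * R') * D u v := by
    intro u v huv
    have hDuv := hD.nonneg u v
    have hx1 : 0 ≤ B' / δ := div_nonneg hB'0 hδ.le
    have hx2 : 0 ≤ 2 * k * R' := by positivity
    have hmixed : comp (io u) ≠ comp (io v) → B' ≤ (B' / δ + 2 * k * R') * D u v := by
      intro hne
      have h1 := cl.far hD hne
      have h2 : B' = B' / δ * δ := by field_simp
      calc B' = B' / δ * δ := h2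
        _ ≤ B' / δ * D u v := mul_le_mul_of_nonneg_left h1.le hx1
        _ ≤ _ := mul_le_mul_of_nonneg_right (by linarith) hDuv
    by_cases hu : u ∈ W
    · by_cases hv : v ∈ W
      · set t := (go v - h (io v)) - (go u - h (io u)) with ht
        have h1 : ∀ χ, ‖F χ u - F χ v‖ = ‖1 - χ t‖ := by
          intro χ
          rw [hF1 χ u hu, hF1 χ v hv]
          have e1 : χ (go v - h (io v)) = χ (go u - h (io u)) * χ t := by
            rw [← AddChar.map_add_eq_mul, ht, add_sub_cancel]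
          rw [e1, show χ (go u - h (io u)) - χ (go u - h (io u)) * χ t =
            χ (go u - h (io u)) * (1 - χ t) by ring, norm_mul, hz1, one_mul]
        simp_rw [h1]
        have hiu : comp (io u) = q0 := (hmemW u).1 hu
        have hiv : comp (io v) = q0 := (hmemW v).1 hv
        have h2 := hR u v huv hiu hiv
        rw [← ht] at h2
        have h3 : D (h (io u) +ᵥ y (io u)) (t +ᵥ (h (io u) +ᵥ y (io u))) ≤ (2 * k) * D u v := by
          have e1 : D (h (io u) +ᵥ y (io u)) (t +ᵥ (h (io u) +ᵥ y (io u))) =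
              D u ((go v - h (io v)) +ᵥ (h (io u) +ᵥ y (io u))) := by
            rw [← hD.inv (go u - h (io u)), ← add_vadd (go u - h (io u)) t, ht, add_sub_cancel,
              ← cl.base u]
          have e2 := hD.tri u v ((go v - h (io v)) +ᵥ (h (io u) +ᵥ y (io u)))
          have e3 : D v ((go v - h (io v)) +ᵥ (h (io u) +ᵥ y (io u))) =
              D (h (io v) +ᵥ y (io v)) (h (io u) +ᵥ y (io u)) := by
            have e5 := hD.inv (go v - h (io v)) (h (io v) +ᵥ y (io v)) (h (io u) +ᵥ y (io u))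
            rw [← cl.base v] at e5
            exact e5
          have e4 := cl.close hD hk0 (hiv.trans hiu.symm) 0
          rw [zero_vadd, hD.symm v u] at e4
          rw [e1]
          nlinarith
        calc _ ≤ R' * D (h (io u) +ᵥ y (io u)) (t +ᵥ (h (io u) +ᵥ y (io u))) := h2
          _ ≤ R' * ((2 * k) * D u v) := mul_le_mul_of_nonneg_left h3 hR0
          _ = (2 * k * R') * D u v := by ring
          _ ≤ _ := mul_le_mul_of_nonneg_right (by linarith) hDuv
      · have h1 : ∀ χ, b' χ * ‖F χ u - F χ v‖ = b' χ := by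
          intro χ
          rw [hF1 χ u hu, hF0 χ v hv, sub_zero, hz1, mul_one]
        simp_rw [h1]
        apply hmixed
        rw [(hmemW u).1 hu]
        intro h2
        exact hv ((hmemW v).2 h2.symm)
    · by_cases hv : v ∈ W
      · have h1 : ∀ χ, b' χ * ‖F χ u - F χ v‖ = b' χ := by
          intro χ
          rw [hF1 χ v hv, hF0 χ u hu, zero_sub, norm_neg, hz1, mul_one]
        simp_rw [h1]
        apply hmixed
        rw [(hmemW v).1 hv]
        intro h2
        exact hu ((hmemW u).2 h2)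
      · have h1 : ∀ χ, b' χ * ‖F χ u - F χ v‖ = 0 := by
          intro χ
          rw [hF0 χ u hu, hF0 χ v hv, sub_zero, norm_zero, mul_zero]
        simp_rw [h1]
        rw [sum_const_zero]
        positivity
  calc B' * (phi c * (W.card : ℝ) ^ 2) = ∑ χ, b' χ * (phi c * (W.card : ℝ) ^ 2) := by
        rw [hB', sum_mul]
    _ ≤ ∑ χ, Real.sqrt 2 * ∑ u, ∑ v, c u v * (b' χ * ‖F χ u - F χ v‖) :=
        sum_le_sum fun χ _ => hchar χ
    _ = Real.sqrt 2 * ∑ u, ∑ v, c u v * ∑ χ, b' χ * ‖F χ u - F χ v‖ := by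
        rw [← mul_sum, sum_comm]
        congr 1
        apply sum_congr rfl; intro u _
        rw [sum_comm]
        apply sum_congr rfl; intro v _
        rw [mul_sum]
    _ ≤ Real.sqrt 2 * ∑ u, ∑ v, c u v * ((B' / δ + 2 * k * R') * D u v) := by
        apply mul_le_mul_of_nonneg_left _ (Real.sqrt_nonneg 2)
        refine sum_le_sum fun u _ => sum_le_sum fun v _ => ?_
        by_cases huv : c u v = 0
        · rw [huv, zero_mul, zero_mul]
        · exact mul_le_mul_of_nonneg_left (hpair u v huv) (hc u v)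
    _ = _ := by
        congr 1
        rw [mul_sum]
        apply sum_congr rfl; intro u _
        rw [mul_sum]
        apply sum_congr rfl; intro v _
        ring

end Vale.Agent.P318.H794
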