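import Vale.Agent.P318.H794.Chars

/-! The rounding theorem for few orbits of an abelian group. -/

open Finset

set_option linter.unusedSectionVars false

namespace Vale.Agent.P318.H794

open Vale.Agent.P318.H867

variable {V G I ι : Type*} [Fintype V] [DecidableEq V] [AddCommGroup G] [Fintype G] [DecidableEq G]
  [AddAction G V] [Fintype I] [DecidableEq I] [Fintype ι]

/-- the common part of the spectral weights of the base points in `C` -/
noncomputable def bw (x : V → EuclideanSpace ℝ ι) (C : Finset I) (x0 : I → V) (o : V)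
    (χ : AddChar G ℂ) : ℝ :=
  if χ = 0 then 0 else max 0 (mh x o χ / 2 - ∑ i ∈ C, dh x o (x0 i) χ)

theorem bw_nonneg (x : V → EuclideanSpace ℝ ι) (C : Finset I) (x0 : I → V) (o : V)
    (χ : AddChar G ℂ) : 0 ≤ bw x C x0 o χ := by
  unfold bw
  split_ifs
  · exact le_rfl
  · exact le_max_left _ _

theorem bw_zero (x : V → EuclideanSpace ℝ ι) (C : Finset I) (x0 : I → V) (o : V) :
    bw x C x0 o (0 : AddChar G ℂ) = 0 := by simp [bw]

theorem bw_le (x : V → EuclideanSpace ℝ ι) {C : Finset I} (x0 : I → V) (o : V)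
    (χ : AddChar G ℂ) {i : I} (hi : i ∈ C) : bw x C x0 o χ ≤ mh x (x0 i) χ := by
  unfold bw
  split_ifs
  · exact mh_nonneg _ _ _
  · apply max_le (mh_nonneg _ _ _)
    have h1 := mh_le x o (x0 i) χ
    have h2 : dh x o (x0 i) χ ≤ ∑ i ∈ C, dh x o (x0 i) χ :=
      single_le_sum (f := fun i => dh x o (x0 i) χ) (fun j _ => dh_nonneg _ _ _ _) hi
    linarith

variable {d : V → V → ℝ} {x : V → EuclideanSpace ℝ ι}

theorem sum_bw_ge (hd : ∀ u v, d u v = ‖x u - x v‖ ^ 2) (C : Finset I) (x0 : I → V) (o : V) :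
    (∑ χ ∈ univ.erase (0 : AddChar G ℂ), mh x o χ) / 2 - ∑ i ∈ C, sD G d o (x0 i) ≤
      ∑ χ : AddChar G ℂ, bw x C x0 o χ := by
  have h1 : ∑ i ∈ C, sD G d o (x0 i) = ∑ χ : AddChar G ℂ, ∑ i ∈ C, dh x o (x0 i) χ := by
    rw [sum_comm]
    exact sum_congr rfl fun i _ => (sum_dh' hd _ _).symm
  have h2 : ∑ χ ∈ univ.erase (0 : AddChar G ℂ), ∑ i ∈ C, dh x o (x0 i) χ ≤
      ∑ χ : AddChar G ℂ, ∑ i ∈ C, dh x o (x0 i) χ :=
    sum_le_sum_of_subset_of_nonneg (erase_subset _ _)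
      fun χ _ _ => sum_nonneg fun i _ => dh_nonneg _ _ _ _
  have h3 : ∑ χ ∈ univ.erase (0 : AddChar G ℂ), (mh x o χ / 2 - ∑ i ∈ C, dh x o (x0 i) χ) ≤
      ∑ χ : AddChar G ℂ, bw x C x0 o χ := by
    calc _ ≤ ∑ χ ∈ univ.erase (0 : AddChar G ℂ), bw x C x0 o χ := by
          apply sum_le_sum
          intro χ hχ
          unfold bw
          rw [if_neg (ne_of_mem_erase hχ)]
          exact le_max_right _ _
      _ ≤ _ := sum_le_sum_of_subset_of_nonneg (erase_subset _ _)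
          fun χ _ _ => bw_nonneg _ _ _ _ _
  rw [sum_sub_distrib, ← sum_div] at h3
  linarith

/-- arithmetic: the nontrivial characters carry weight -/
theorem ar1 {n w k δ A0 T sf Sp M1 : ℝ} (hn0 : 0 < n) (hw0 : 0 < w) (hw1 : 3 * n ≤ 4 * w)
    (hk1 : 1 ≤ k) (hδ : 0 < δ) (hTpos : 0 < T) (hTA : T = n ^ 2 * A0) (hδk : 60 * k ^ 2 * δ = A0)
    (hspread : 10 * Sp < T) (hsg : w * sf ≤ Sp + n * w * (k * δ))
    (hTle : T ≤ 2 * n * sf + 2 * n ^ 2 * M1) : 7 / 20 * A0 ≤ M1 := by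
  have h1 : w * sf ≤ T / 10 + n * w * (k * δ) := by linarith
  have h2 : n * (w * sf) ≤ n * (T / 10 + n * w * (k * δ)) := mul_le_mul_of_nonneg_left h1 hn0.le
  have h3 : n * T / 10 ≤ 4 / 30 * (w * T) := by nlinarith
  have h4 : w * (n * sf) ≤ w * (4 / 30 * T + n ^ 2 * (k * δ)) := by
    calc w * (n * sf) = n * (w * sf) := by ring
      _ ≤ n * (T / 10 + n * w * (k * δ)) := h2
      _ = n * T / 10 + w * (n ^ 2 * (k * δ)) := by ring
      _ ≤ 4 / 30 * (w * T) + w * (n ^ 2 * (k * δ)) := by linarith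
      _ = _ := by ring
  have h5 : n * sf ≤ 4 / 30 * T + n ^ 2 * (k * δ) := le_of_mul_le_mul_left h4 hw0
  have h6 : k * δ ≤ A0 / 60 := by
    have : k * δ ≤ k ^ 2 * δ := by
      apply mul_le_mul_of_nonneg_right _ hδ.le
      nlinarith
    linarith
  have h7 : n ^ 2 * (k * δ) ≤ n ^ 2 * (A0 / 60) := mul_le_mul_of_nonneg_left h6 (by positivity)
  have h8 : n ^ 2 * (7 / 20 * A0) ≤ n ^ 2 * M1 := by
    have e1 : n ^ 2 * (A0 / 60) = T / 60 := by rw [hTA]; ring
    have e2 : n ^ 2 * (7 / 20 * A0) = 7 / 20 * T := by rw [hTA]; ring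
    have e3 : 2 * n * sf = 2 * (n * sf) := by ring
    have e4 : 2 * n ^ 2 * M1 = 2 * (n ^ 2 * M1) := by ring
    rw [e1] at h7
    rw [e3, e4] at hTle
    rw [e2]
    linarith
  exact le_of_mul_le_mul_left h8 (by positivity)

/-- arithmetic: the final combination -/
theorem ar2 {n w k δ A0 T a E R' B' : ℝ} (hn0 : 0 < n) (hw0 : 0 < w) (hw1 : 3 * n ≤ 4 * w)
    (hk1 : 1 ≤ k) (hδ : 0 < δ) (hA0 : 0 < A0) (ha0 : 0 ≤ a) (hE0 : 0 ≤ E) (hR0 : 0 ≤ R')
    (hTA : T = n ^ 2 * A0) (hδk : 60 * k ^ 2 * δ = A0) (hB'ge : 3 / 40 * A0 ≤ B')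
    (hmain : B' * (a * w ^ 2) ≤ Real.sqrt 2 * ((B' / δ + 2 * k * R') * E)) :
    a * T ≤ (300 * k ^ 2 + 70 * k * R') * E := by
  have hB'pos : 0 < B' := by
    have : 0 < 3 / 40 * A0 := by positivity
    linarith
  have hsq : Real.sqrt 2 ≤ 1.4143 := by
    rw [Real.sqrt_le_left (by norm_num)]
    norm_num
  have hk0 : 0 ≤ k := by linarith
  have hkR : 0 ≤ k * R' := mul_nonneg hk0 hR0
  have h1 : B' * (a * w ^ 2 * A0) ≤ B' * (1.4143 * ((60 * k ^ 2 + 80 / 3 * (k * R')) * E)) := by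
    have e1 : (B' / δ + 2 * k * R') * A0 ≤ B' * (60 * k ^ 2 + 80 / 3 * (k * R')) := by
      have e2 : B' / δ * A0 = B' * (60 * k ^ 2) := by
        rw [← hδk]; field_simp
      have e3 : 2 * k * R' * A0 ≤ B' * (80 / 3 * (k * R')) := by
        have := mul_le_mul_of_nonneg_left hB'ge hkR
        calc 2 * k * R' * A0 = 80 / 3 * (k * R' * (3 / 40 * A0)) := by ring
          _ ≤ 80 / 3 * (k * R' * B') := by linarith
          _ = _ := by ring
      calc (B' / δ + 2 * k * R') * A0 = B' / δ * A0 + 2 * k * R' * A0 := by ring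
        _ ≤ B' * (60 * k ^ 2) + B' * (80 / 3 * (k * R')) := by rw [e2]; linarith
        _ = _ := by ring
    have e5 : 0 ≤ 60 * k ^ 2 + 80 / 3 * (k * R') := by positivity
    calc B' * (a * w ^ 2 * A0) = B' * (a * w ^ 2) * A0 := by ring
      _ ≤ Real.sqrt 2 * ((B' / δ + 2 * k * R') * E) * A0 :=
          mul_le_mul_of_nonneg_right hmain hA0.le
      _ = Real.sqrt 2 * ((B' / δ + 2 * k * R') * A0 * E) := by ring
      _ ≤ Real.sqrt 2 * (B' * (60 * k ^ 2 + 80 / 3 * (k * R')) * E) := by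
          apply mul_le_mul_of_nonneg_left _ (Real.sqrt_nonneg 2)
          exact mul_le_mul_of_nonneg_right e1 hE0
      _ ≤ 1.4143 * (B' * (60 * k ^ 2 + 80 / 3 * (k * R')) * E) := by
          apply mul_le_mul_of_nonneg_right hsq
          exact mul_nonneg (mul_nonneg hB'pos.le e5) hE0
      _ = _ := by ring
  have h2 : a * w ^ 2 * A0 ≤ 1.4143 * ((60 * k ^ 2 + 80 / 3 * (k * R')) * E) :=
    le_of_mul_le_mul_left h1 hB'pos
  have h3 : a * T ≤ 16 / 9 * (a * w ^ 2 * A0) := by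
    have e1 : n ^ 2 ≤ 16 / 9 * w ^ 2 := by nlinarith
    have e2 : 0 ≤ a * A0 := by positivity
    calc a * T = n ^ 2 * (a * A0) := by rw [hTA]; ring
      _ ≤ 16 / 9 * w ^ 2 * (a * A0) := mul_le_mul_of_nonneg_right e1 e2
      _ = _ := by ring
  have h4 : 0 ≤ k ^ 2 * E := mul_nonneg (by positivity) hE0
  have h5 : 0 ≤ k * R' * E := mul_nonneg hkR hE0
  calc a * T ≤ 16 / 9 * (1.4143 * ((60 * k ^ 2 + 80 / 3 * (k * R')) * E)) := by linarith
    _ = 16 / 9 * 1.4143 * 60 * (k ^ 2 * E) + 16 / 9 * 1.4143 * (80 / 3) * (k * R' * E) := by ring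
    _ ≤ 300 * (k ^ 2 * E) + 70 * (k * R' * E) := by
        apply add_le_add
        · apply mul_le_mul_of_nonneg_right _ h4; norm_num
        · apply mul_le_mul_of_nonneg_right _ h5; norm_num
    _ = _ := by ring

/-- a balanced union of clusters -/
theorem case_bal {c : V → V → ℝ} (hc : ∀ u v, 0 ≤ c u v) (hs : ∀ u v, c u v = c v u)
    {D : V → V → ℝ} {y : I → V} {δ k : ℝ} {comp : I → I} {h : I → G} {io : V → I} {go : V → G}
    (hD : InvMetric G D) (cl : Clus D y δ k comp h io go) (hδ : 0 < δ) (S : Finset I)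
    (hS : (Fintype.card V : ℝ) ^ 2 ≤
      10 * (((univ.filter (fun v => comp (io v) ∈ S)).card : ℝ) *
        ((univ.filter (fun v => comp (io v) ∉ S)).card : ℝ))) :
    phi c * (Fintype.card V : ℝ) ^ 2 ≤ 5 * ((∑ u, ∑ v, c u v * D u v) / δ) := by
  classical
  set U := univ.filter (fun v => comp (io v) ∈ S) with hU
  have hUc : univ.filter (fun v => comp (io v) ∉ S) = Uᶜ := by
    rw [hU, compl_filter]
  rw [hUc] at hS
  have h1 := ind_ineq hc hs U
  rw [card_ind_sub] at h1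
  have h2 : ∑ u, ∑ v, c u v * |ind U u - ind U v| ≤ ∑ u, ∑ v, c u v * (D u v / δ) := by
    refine sum_le_sum fun u _ => sum_le_sum fun v _ => mul_le_mul_of_nonneg_left ?_ (hc u v)
    have hdiv : 0 ≤ D u v / δ := div_nonneg (hD.nonneg u v) hδ.le
    by_cases hu : comp (io u) ∈ S <;> by_cases hv : comp (io v) ∈ S
    · have e1 : u ∈ U := by simp [hU, hu]
      have e2 : v ∈ U := by simp [hU, hv]
      simp only [ind, if_pos e1, if_pos e2, sub_self, abs_zero]
      exact hdiv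
    · have e1 : u ∈ U := by simp [hU, hu]
      have e2 : v ∉ U := by simp [hU, hv]
      simp only [ind, if_pos e1, if_neg e2, sub_zero, abs_one]
      rw [le_div_iff₀ hδ, one_mul]
      exact (cl.far hD (u := u) (v := v) (fun h3 => hv (by rw [← h3]; exact hu))).le
    · have e1 : u ∉ U := by simp [hU, hu]
      have e2 : v ∈ U := by simp [hU, hv]
      simp only [ind, if_neg e1, if_pos e2, zero_sub, abs_neg, abs_one]
      rw [le_div_iff₀ hδ, one_mul]
      exact (cl.far hD (u := u) (v := v) (fun h3 => hu (by rw [h3]; exact hv))).le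
    · have e1 : u ∉ U := by simp [hU, hu]
      have e2 : v ∉ U := by simp [hU, hv]
      simp only [ind, if_neg e1, if_neg e2, sub_self, abs_zero]
      exact hdiv
  have h3 : ∑ u, ∑ v, c u v * (D u v / δ) = (∑ u, ∑ v, c u v * D u v) / δ := by
    rw [sum_div]
    apply sum_congr rfl; intro u _
    rw [sum_div]
    apply sum_congr rfl; intro v _
    ring
  have h4 := h1.trans (h2.trans h3.le)
  have := mul_le_mul_of_nonneg_left hS (phi_nonneg hc)
  linarith

/-- **The rounding theorem.** -/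
theorem core {c : V → V → ℝ} (hc : ∀ u v, 0 ≤ c u v) (hs : ∀ u v, c u v = c v u)
    (hinv : ∀ (g : G) u v, c (g +ᵥ u) (g +ᵥ v) = c u v)
    {M : ℕ} (hM : ∀ u, (univ.filter (fun v => c u v ≠ 0)).card ≤ M)
    (hd : ∀ u v, d u v = ‖x u - x v‖ ^ 2) (htri : ∀ u v w, d u w ≤ d u v + d v w)
    (y : I → V) (hy : ∀ v, ∃ (i : I) (g : G), v = g +ᵥ y i) {R' : ℝ} (hR0 : 0 ≤ R')
    (hR : ∀ (b : AddChar G ℂ → ℝ) (C : Finset I) (x0 : I → V) (Qs : I → Finset G),
      (∀ χ, 0 ≤ b χ) → 0 < ∑ χ, b χ →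
      (∀ i ∈ C, ∀ g : G, ∑ χ, b χ * Q χ g ≤ sD G d (x0 i) (g +ᵥ x0 i)) → C.Nonempty →
      (∀ i ∈ C, ∃ P : Finset G, P.card ≤ M ∧ ∀ q ∈ Qs i, ∃ p ∈ P,
        ∀ χ : AddChar G ℂ, 0 < b χ → χ q = χ p) →
      ∃ b' : AddChar G ℂ → ℝ, (∀ χ, 0 ≤ b' χ) ∧ (∀ χ, b' χ ≤ b χ) ∧
        (∑ χ, b χ) / 2 ≤ ∑ χ, b' χ ∧
        ∀ i ∈ C, ∀ g ∈ Qs i, ∑ χ, b' χ * ‖1 - χ g‖ ≤ R' * sD G d (x0 i) (g +ᵥ x0 i)) :
    phi c * ∑ u, ∑ v, sD G d u v ≤
      (300 * (Fintype.card I : ℝ) ^ 2 + 70 * (Fintype.card I : ℝ) * R') *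
        ∑ u, ∑ v, c u v * sD G d u v := by
  classical
  have hD : InvMetric G (sD G d) := invMetric_sD hd htri
  set D := sD G d with hDdef
  set a := phi c with ha
  have ha0 : 0 ≤ a := phi_nonneg hc
  set n : ℝ := (Fintype.card V : ℝ) with hn
  set T := ∑ u, ∑ v, D u v with hT
  set E := ∑ u, ∑ v, c u v * D u v with hE
  set k : ℝ := (Fintype.card I : ℝ) with hk
  have hk00 : 0 ≤ k := by rw [hk]; positivity
  have hE0 : 0 ≤ E := sum_nonneg fun u _ => sum_nonneg fun v _ => mul_nonneg (hc u v) (hD.nonneg u v)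
  have hT0 : 0 ≤ T := sum_nonneg fun u _ => sum_nonneg fun v _ => hD.nonneg u v
  rcases hT0.eq_or_lt with hTz | hTpos
  · rw [← hTz, mul_zero]
    positivity
  have hVne : Nonempty V := by
    by_contra hcon
    rw [not_nonempty_iff] at hcon
    rw [hT] at hTpos
    simp at hTpos
  have hn0 : 0 < n := by rw [hn]; exact_mod_cast Fintype.card_pos
  have hk1 : 1 ≤ k := by
    obtain ⟨v⟩ := hVne
    obtain ⟨i, -⟩ := hy v
    have : 0 < Fintype.card I := Fintype.card_pos_iff.2 ⟨i⟩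
    rw [hk]; exact_mod_cast this
  set A0 := T / n ^ 2 with hA0
  have hA0pos : 0 < A0 := by positivity
  have hTA : T = n ^ 2 * A0 := by rw [hA0]; field_simp
  set δ := A0 / (60 * k ^ 2) with hδdef
  have hδ : 0 < δ := by positivity
  have hδk : 60 * k ^ 2 * δ = A0 := by rw [hδdef]; field_simp
  obtain ⟨comp, h, ha1, hb1, hc1⟩ := kruskal hD y hδ.le
  choose io go hio using hy
  have cl : Clus D y δ k comp h io go := ⟨ha1, hb1, hc1, hio⟩
  -- balanced union of classes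
  by_cases hbal : ∃ S : Finset I, n ^ 2 ≤
      10 * (((univ.filter (fun v => comp (io v) ∈ S)).card : ℝ) *
        ((univ.filter (fun v => comp (io v) ∉ S)).card : ℝ))
  · obtain ⟨S, hS⟩ := hbal
    have h5 : a * n ^ 2 ≤ 5 * (E / δ) := case_bal hc hs hD cl hδ S hS
    have h6 : a * T ≤ 300 * k ^ 2 * E := by
      calc a * T = a * n ^ 2 * A0 := by rw [hTA]; ring
        _ ≤ 5 * (E / δ) * A0 := mul_le_mul_of_nonneg_right h5 hA0pos.le
        _ = 300 * k ^ 2 * E := by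
          rw [← hδk]
          field_simp
          ring
    have h7 : 0 ≤ 70 * k * R' * E := by positivity
    calc a * T ≤ 300 * k ^ 2 * E := h6
      _ ≤ _ := by linarith
  push Not at hbal
  obtain ⟨q0, hq0⟩ := big_class (fun v => comp (io v)) Fintype.card_pos hbal
  set W := univ.filter (fun v => comp (io v) = q0) with hW
  set w : ℝ := (W.card : ℝ) with hw
  have hw1 : 3 * n ≤ 4 * w := hq0
  have hw0 : 0 < w := by linarith
  obtain ⟨v0, hv0⟩ : W.Nonempty := by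
    rw [← card_pos]
    have : (0 : ℝ) < (W.card : ℝ) := hw0
    exact_mod_cast this
  have hv0' : comp (io v0) = q0 := by simpa [hW] using hv0
  set x0 : I → V := fun i => h i +ᵥ y i with hx0
  set o := x0 (io v0) with ho
  set C := univ.filter (fun i => comp i = q0) with hC
  -- the distance to the orbit of `o`
  set f := fo G D o with hf
  have hf0 : ∀ u, 0 ≤ f u := fun u => fo_nonneg hD o u
  have hfW : ∀ v ∈ W, f v ≤ k * δ := by
    intro v hv
    have hv' : comp (io v) = q0 := by simpa [hW] using hv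
    have h1 := fo_le (G := G) D o v (go v - h (io v))
    have h2 : D v ((go v - h (io v)) +ᵥ o) = D (x0 (io v)) o := by
      have e5 := hD.inv (go v - h (io v)) (h (io v) +ᵥ y (io v)) o
      rw [← cl.base v] at e5
      exact e5
    rw [h2] at h1
    exact h1.trans (ha1 _ _ (hv'.trans hv0'.symm))
  have hco := coarea hc hs f
  have hco2 : ∑ u, ∑ v, c u v * |f u - f v| ≤ E :=
    sum_le_sum fun u _ => sum_le_sum fun v _ =>
      mul_le_mul_of_nonneg_left (fo_lip hD o u v) (hc u v)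
  set Sp := ∑ u, ∑ v, |f u - f v| with hSp
  have hR1 : 10 ≤ 300 * k ^ 2 + 70 * k * R' := by
    have h1 : 1 ≤ k ^ 2 := by nlinarith
    have h2 : 0 ≤ k * R' := by positivity
    linarith
  by_cases hspread : T ≤ 10 * Sp
  · calc a * T ≤ a * (10 * Sp) := mul_le_mul_of_nonneg_left hspread ha0
      _ = 10 * (a * Sp) := by ring
      _ ≤ 10 * E := by linarith [hco.trans hco2]
      _ ≤ _ := mul_le_mul_of_nonneg_right hR1 hE0
  push Not at hspread
  set sf := ∑ u, f u with hsf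
  have hsg : w * sf ≤ Sp + n * w * (k * δ) := by
    have h1 : w * sf = ∑ u, ∑ v ∈ W, f u := by
      rw [hsf, mul_sum]
      apply sum_congr rfl; intro u _
      rw [sum_const, nsmul_eq_mul]
    have h2 : ∑ u, ∑ v ∈ W, f u ≤ ∑ u, ∑ v ∈ W, (|f u - f v| + k * δ) := by
      refine sum_le_sum fun u _ => sum_le_sum fun v hv => ?_
      have e1 := hfW v hv
      have e2 := le_abs_self (f u - f v)
      linarith
    have h3 : ∑ u, ∑ v ∈ W, (|f u - f v| + k * δ) =
        ∑ u, ∑ v ∈ W, |f u - f v| + n * w * (k * δ) := by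
      simp only [sum_add_distrib, sum_const, nsmul_eq_mul, card_univ]
      ring
    have h4 : ∑ u, ∑ v ∈ W, |f u - f v| ≤ Sp :=
      sum_le_sum fun u _ => sum_le_sum_of_subset_of_nonneg (subset_univ _)
        fun v _ _ => abs_nonneg _
    linarith
  -- the weight of the nontrivial characters at `o`
  set M1 := ∑ χ ∈ univ.erase (0 : AddChar G ℂ), mh x o χ with hM1
  have hG0 : (0 : ℝ) < Fintype.card G := by exact_mod_cast Fintype.card_pos
  have hTle : T ≤ 2 * n * sf + 2 * n ^ 2 * M1 := by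
    have h1 := total_le hD o
    have h2 : ∑ g : G, D o (g +ᵥ o) = 2 * (Fintype.card G : ℝ) * M1 := sum_sD hd o
    rw [h2] at h1
    have h3 : (Fintype.card G : ℝ) * T ≤ (Fintype.card G : ℝ) * (2 * n * sf + 2 * n ^ 2 * M1) := by
      calc (Fintype.card G : ℝ) * T ≤ (Fintype.card G : ℝ) * (2 * n * sf) +
            n ^ 2 * (2 * (Fintype.card G : ℝ) * M1) := h1
        _ = _ := by ring
    exact le_of_mul_le_mul_left h3 hG0
  have hM1ge : 7 / 20 * A0 ≤ M1 :=
    ar1 hn0 hw0 hw1 hk1 hδ hTpos hTA hδk hspread hsg hTle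
  -- the measure
  set b := bw (G := G) x C x0 o with hb
  have hb0 : ∀ χ, 0 ≤ b χ := fun χ => bw_nonneg _ _ _ _ _
  set B := ∑ χ, b χ with hB
  have hBge : 3 / 20 * A0 ≤ B := by
    have h1 := sum_bw_ge (G := G) hd C x0 o
    have h2 : ∑ i ∈ C, D o (x0 i) ≤ k * (k * δ) := by
      calc ∑ i ∈ C, D o (x0 i) ≤ ∑ i ∈ C, k * δ := by
            apply sum_le_sum
            intro i hi
            have hi' : comp i = q0 := by simpa [hC] using hi
            exact ha1 _ _ (hv0'.trans hi'.symm)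
        _ = (C.card : ℝ) * (k * δ) := by rw [sum_const, nsmul_eq_mul]
        _ ≤ _ := by
          apply mul_le_mul_of_nonneg_right _ (by positivity)
          rw [hk]
          exact_mod_cast card_le_univ C
    have h3 : M1 / 2 - ∑ i ∈ C, D o (x0 i) ≤ B := h1
    nlinarith
  have hBpos : 0 < B := by
    have : 0 < 3 / 20 * A0 := by positivity
    linarith
  have hbN : ∀ i ∈ C, ∀ g : G, ∑ χ, b χ * Q χ g ≤ D (x0 i) (g +ᵥ x0 i) := by
    intro i hi g
    rw [hDdef, sD_vadd hd]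
    exact sum_le_sum fun χ _ => mul_le_mul_of_nonneg_right (bw_le x x0 o χ hi) (Q_nonneg _ _)
  have hbN' : ∀ i, comp i = q0 → ∀ g : G,
      ∑ χ, b χ * Q χ g ≤ D (h i +ᵥ y i) (g +ᵥ (h i +ᵥ y i)) := fun i hi g =>
    hbN i (by simp [hC, hi]) g
  set Qs : I → Finset G := fun i =>
    ((univ : Finset (V × V)).filter (fun p => c p.1 p.2 ≠ 0 ∧ comp (io p.1) = q0 ∧
      comp (io p.2) = q0 ∧ io p.1 = i)).image
      (fun p => (go p.2 - h (io p.2)) - (go p.1 - h (io p.1))) with hQs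
  have hQsP : ∀ i ∈ C, ∃ P : Finset G, P.card ≤ M ∧ ∀ q ∈ Qs i, ∃ p ∈ P,
      ∀ χ : AddChar G ℂ, 0 < b χ → χ q = χ p := by
    intro i _
    obtain ⟨P, hP1, hP2⟩ := exists_P hinv hD cl hk00 hδ q0 hb0 hbN' hM i
    refine ⟨P, hP1, ?_⟩
    intro q hq
    obtain ⟨p, hp, rfl⟩ := mem_image.1 hq
    simp only [mem_filter, mem_univ, true_and] at hp
    exact hP2 p.1 p.2 hp.1 hp.2.1 hp.2.2.1 hp.2.2.2
  obtain ⟨b', hb'0, hb'le, hb'half, hb'R⟩ := hR b C x0 Qs hb0 hBpos hbN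
    ⟨io v0, by simp [hC, hv0']⟩ hQsP
  have hmain := char_part hc hs hD cl hk1 hδ q0 hb'0 hb'le (bw_zero x C x0 o) hbN' hR0
    (fun u v huv hu hv => hb'R (io u) (by simp [hC, hu]) _
      (mem_image.2 ⟨(u, v), by simp [huv, hu, hv], rfl⟩))
  rw [← hW, ← ha, ← hE] at hmain
  change (∑ χ, b' χ) * (a * w ^ 2) ≤ _ at hmain
  set B' := ∑ χ, b' χ with hB'
  have hB'ge : 3 / 40 * A0 ≤ B' := by linarith
  exact ar2 hn0 hw0 hw1 hk1 hδ hA0pos ha0 hE0 hR0 hTA hδk hB'ge hmain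

end Vale.Agent.P318.H794
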