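import Vale.Agent.P318.H867.Fourier
import Vale.Agent.P318.H794.Multi
import Vale.Agent.P318.H612.Trig

/-! First moments of a measure on the characters whose second moments are dominated by several
subadditive functions. -/

open Finset

set_option linter.unusedSectionVars false

namespace Vale.Agent.P318.H794

open Vale.Agent.P318.H867

variable {G : Type*} [AddCommGroup G] [Fintype G] [DecidableEq G]

theorem N_nsmul_le (N : G → ℝ) (hN : ∀ g h, N (g + h) ≤ N g + N h) (g : G) (i : ℕ) :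
    N ((2 ^ i : ℕ) • g) ≤ (2:ℝ)^i * N g := by
  induction i with
  | zero => simp
  | succ i ih =>
    have : (2 ^ (i+1) : ℕ) • g = (2 ^ i : ℕ) • g + (2 ^ i : ℕ) • g := by
      rw [← add_nsmul]; congr 1; ring
    rw [this]
    calc _ ≤ N ((2 ^ i : ℕ) • g) + N ((2 ^ i : ℕ) • g) := hN _ _
      _ ≤ _ := by rw [pow_succ]; linarith

/-- the bound with the exponent -/
theorem end_exp {m : ℕ} (hm : 0 < m) (hexp : ∀ g : G, m • g = 0) {b : AddChar G ℂ → ℝ}
    (hb : ∀ χ, 0 ≤ b χ) {N : G → ℝ} (hN : ∀ g h, N (g + h) ≤ N g + N h)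
    (hbN : ∀ g, ∑ χ, b χ * Q χ g ≤ N g) (g : G) :
    ∑ χ, b χ * ‖1 - χ g‖ ≤ Real.pi / 2 * Nat.log 2 m * N g := by
  have hpi := Real.pi_pos
  have h1 : ∀ χ : AddChar G ℂ, b χ * ‖1 - χ g‖ ≤
      Real.pi / 2 * ∑ j ∈ range (Nat.log 2 m), (1 / 2 : ℝ) ^ j * (b χ * Q χ ((2 ^ j : ℕ) • g)) := by
    intro χ
    have hz : (χ g) ^ m = 1 := by rw [← AddChar.map_nsmul_eq_pow, hexp, AddChar.map_zero_eq_one]
    have h2 := H612.dyadic hm hz
    calc b χ * ‖1 - χ g‖ ≤ b χ * (Real.pi / 2 * ∑ j ∈ range (Nat.log 2 m),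
          (1 / 2 : ℝ) ^ j * ‖1 - (χ g) ^ 2 ^ j‖ ^ 2) := mul_le_mul_of_nonneg_left h2 (hb χ)
      _ = _ := by
        rw [mul_left_comm, mul_sum]
        congr 1
        apply sum_congr rfl
        intro j _
        unfold Q
        rw [AddChar.map_nsmul_eq_pow]
        ring
  calc ∑ χ, b χ * ‖1 - χ g‖ ≤ ∑ χ : AddChar G ℂ, Real.pi / 2 * ∑ j ∈ range (Nat.log 2 m),
        (1 / 2 : ℝ) ^ j * (b χ * Q χ ((2 ^ j : ℕ) • g)) := sum_le_sum fun χ _ => h1 χ
    _ = Real.pi / 2 * ∑ j ∈ range (Nat.log 2 m),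
        (1 / 2 : ℝ) ^ j * ∑ χ : AddChar G ℂ, b χ * Q χ ((2 ^ j : ℕ) • g) := by
      rw [← mul_sum, sum_comm]
      congr 1
      apply sum_congr rfl
      intro j _
      rw [mul_sum]
    _ ≤ Real.pi / 2 * ∑ j ∈ range (Nat.log 2 m), N g := by
      apply mul_le_mul_of_nonneg_left _ (by positivity)
      apply sum_le_sum
      intro j _
      calc (1 / 2 : ℝ) ^ j * ∑ χ : AddChar G ℂ, b χ * Q χ ((2 ^ j : ℕ) • g)
          ≤ (1 / 2 : ℝ) ^ j * ((2:ℝ)^j * N g) := by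
            apply mul_le_mul_of_nonneg_left _ (by positivity)
            exact (hbN _).trans (N_nsmul_le N hN g j)
        _ = N g := by
            rw [← mul_assoc, ← mul_pow]; norm_num
    _ = _ := by rw [sum_const, card_range, nsmul_eq_mul]; ring

/-- the bound with `log log`, for several functions -/
theorem end_multi {I V : Type*} [Fintype V]
    {b : AddChar G ℂ → ℝ} (hb : ∀ χ, 0 ≤ b χ) (hB : 0 < ∑ χ, b χ) (C : Finset I) {N : I → G → ℝ}
    (hN0 : ∀ i g, 0 ≤ N i g) (hN : ∀ i g h, N i (g + h) ≤ N i g + N i h)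
    (hbN : ∀ i ∈ C, ∀ g, ∑ χ, b χ * Q χ g ≤ N i g)
    {k : ℕ} (hk : 0 < k) (hCk : C.card ≤ k)
    (F : G → V) (hF : ∀ g h, F g = F h → ∀ χ : AddChar G ℂ, 0 < b χ → χ g = χ h)
    {s : ℕ} (Qs : I → Finset G)
    (hs : Fintype.card V < 2 ^ (s + 1) ∨ ∀ i ∈ C, ∃ P : Finset G, P.card ≤ s ∧
      ∀ q ∈ Qs i, ∃ p ∈ P, ∀ χ : AddChar G ℂ, 0 < b χ → χ q = χ p) {J : ℕ}
    (hJ : 4 * Real.pi * k * (s:ℝ) ^ 2 ≤ 2 ^ J) :
    ∃ b' : AddChar G ℂ → ℝ, (∀ χ, 0 ≤ b' χ) ∧ (∀ χ, b' χ ≤ b χ) ∧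
      (∑ χ, b χ) / 2 ≤ ∑ χ, b' χ ∧
      ∀ i ∈ C, ∀ g ∈ Qs i, ∑ χ, b' χ * ‖1 - χ g‖ ≤ (1 + Real.pi * J) * N i g := by
  classical
  set B := ∑ χ, b χ with hBdef
  have hz1 : ∀ (χ : AddChar G ℂ) (g : G), ‖χ g‖ = 1 := fun χ g => χ.norm_apply g
  have hpos : ∀ χ, 0 < b χ / B → 0 < b χ := by
    intro χ hχ
    by_contra hcon
    push Not at hcon
    have : b χ / B ≤ 0 := div_nonpos_of_nonpos_of_nonneg hcon hB.le
    linarith
  obtain ⟨b', hb'0, hb'le, hb'half, hb'Q⟩ := endgame_multi (X := AddChar G ℂ)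
    (G := Multiplicative G) (V := V) C
    (fun χ γ => χ (Multiplicative.toAdd γ))
    (fun χ γ => hz1 χ _)
    (fun χ γ γ' => by rw [toAdd_mul, AddChar.map_add_eq_mul])
    (fun χ => b χ / B) (fun χ => div_nonneg (hb χ) hB.le)
    (fun i γ => N i (Multiplicative.toAdd γ) / B)
    (fun i γ => div_nonneg (hN0 i _) hB.le)
    (fun i γ γ' => by
      rw [← add_div]
      exact div_le_div_of_nonneg_right (hN i _ _) hB.le)
    (1 / 2) (by norm_num)
    (fun i hi γ => by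
      have h1 : ∀ χ : AddChar G ℂ, b χ / B * (1 - (χ (Multiplicative.toAdd γ)).re) =
          b χ * Q χ (Multiplicative.toAdd γ) / (2 * B) := by
        intro χ
        rw [Q_eq]
        field_simp
        try ring
      simp_rw [h1]
      rw [← sum_div]
      calc (∑ χ, b χ * Q χ (Multiplicative.toAdd γ)) / (2 * B) ≤
            N i (Multiplicative.toAdd γ) / (2 * B) :=
            div_le_div_of_nonneg_right (hbN i hi _) (by positivity)
        _ = _ := by field_simp)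
    (fun γ => F (Multiplicative.toAdd γ))
    (fun γ γ' h χ hχ => hF _ _ h χ (hpos χ hχ))
    s k hk hCk J
    (by
      rw [← sum_div, div_self hB.ne', mul_one]
      calc 8 * Real.pi * (1 / 2) * (k : ℝ) * (s:ℝ) ^ 2 = 4 * Real.pi * k * (s:ℝ) ^ 2 := by ring
        _ ≤ _ := hJ)
    (fun i => (Qs i).map Multiplicative.ofAdd.toEmbedding)
    (by
      rcases hs with hs | hs
      · exact Or.inl hs
      · right
        intro i hi
        obtain ⟨P, hP1, hP2⟩ := hs i hi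
        refine ⟨P.map Multiplicative.ofAdd.toEmbedding, by rw [card_map]; exact hP1, ?_⟩
        intro q hq
        obtain ⟨q', hq', rfl⟩ := mem_map.1 hq
        obtain ⟨p, hp, hpq⟩ := hP2 q' hq'
        exact ⟨Multiplicative.ofAdd p, mem_map.2 ⟨p, hp, rfl⟩, fun χ hχ => hpq χ (hpos χ hχ)⟩)
  rw [← sum_div, div_self hB.ne'] at hb'half hb'Q
  refine ⟨fun χ => B * b' χ, fun χ => mul_nonneg hB.le (hb'0 χ), fun χ => ?_, ?_, ?_⟩
  · have := hb'le χ
    rw [le_div_iff₀ hB] at this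
    linarith
  · rw [← mul_sum]
    have := mul_le_mul_of_nonneg_left hb'half hB.le
    linarith
  · intro i hi g hg
    have h1 := hb'Q i hi (Multiplicative.ofAdd g) (mem_map.2 ⟨g, hg, rfl⟩)
    simp only [toAdd_ofAdd] at h1
    calc ∑ χ, B * b' χ * ‖1 - χ g‖ = B * ∑ χ, b' χ * ‖1 - χ g‖ := by
          rw [mul_sum]
          exact sum_congr rfl fun χ _ => by ring
      _ ≤ B * ((1 + 2 * Real.pi * (1 / 2) * J) * (N i g / B)) :=
          mul_le_mul_of_nonneg_left h1 hB.le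
      _ = _ := by field_simp

end Vale.Agent.P318.H794
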