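import Vale.Agent.P318.H794.RoundN
import Vale.Agent.P318.H794.End

/-! First moments of a measure on the characters of an abelian quotient whose second moments are
dominated by several subadditive functions on the group. -/

open Finset

set_option linter.unusedSectionVars false

namespace Vale.Agent.P318.H794

open Vale.Agent.P318.H867

variable {G B : Type*} [Group G] [Fintype G] [DecidableEq G] [AddCommGroup B] [Fintype B]
  [DecidableEq B]

theorem N_pow_le (N : G → ℝ) (hN : ∀ g h, N (g * h) ≤ N g + N h) (g : G) (i : ℕ) :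
    N (g ^ (2 ^ i : ℕ)) ≤ (2:ℝ)^i * N g := by
  induction i with
  | zero => simp
  | succ i ih =>
    have : g ^ (2 ^ (i+1) : ℕ) = g ^ (2 ^ i : ℕ) * g ^ (2 ^ i : ℕ) := by
      rw [← pow_add]; congr 1; ring
    rw [this]
    calc _ ≤ N (g ^ (2 ^ i : ℕ)) + N (g ^ (2 ^ i : ℕ)) := hN _ _
      _ ≤ _ := by rw [pow_succ]; linarith

theorem P_one {P : G → B} (hP : ∀ g h, P (g * h) = P g + P h) : P 1 = 0 := by
  have h := hP 1 1
  rw [mul_one] at h
  exact left_eq_add.1 h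

theorem P_pow {P : G → B} (hP : ∀ g h, P (g * h) = P g + P h) (g : G) (n : ℕ) :
    P (g ^ n) = n • P g := by
  induction n with
  | zero => rw [pow_zero, zero_nsmul, P_one hP]
  | succ n ih => rw [pow_succ, hP, ih, succ_nsmul]

/-- the bound with the exponent -/
theorem end_expM {P : G → B} (hP : ∀ g h, P (g * h) = P g + P h) {m : ℕ} (hm : 0 < m)
    (hexp : ∀ b : B, m • b = 0) {b : AddChar B ℂ → ℝ}
    (hb : ∀ χ, 0 ≤ b χ) {N : G → ℝ} (hN : ∀ g h, N (g * h) ≤ N g + N h)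
    (hbN : ∀ g, ∑ χ, b χ * Q χ (P g) ≤ N g) (g : G) :
    ∑ χ, b χ * ‖1 - χ (P g)‖ ≤ Real.pi / 2 * Nat.log 2 m * N g := by
  have hpi := Real.pi_pos
  have h1 : ∀ χ : AddChar B ℂ, b χ * ‖1 - χ (P g)‖ ≤
      Real.pi / 2 * ∑ j ∈ range (Nat.log 2 m), (1 / 2 : ℝ) ^ j *
        (b χ * Q χ (P (g ^ (2 ^ j : ℕ)))) := by
    intro χ
    have hz : (χ (P g)) ^ m = 1 := by
      rw [← AddChar.map_nsmul_eq_pow, hexp, AddChar.map_zero_eq_one]
    have h2 := H612.dyadic hm hz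
    calc b χ * ‖1 - χ (P g)‖ ≤ b χ * (Real.pi / 2 * ∑ j ∈ range (Nat.log 2 m),
          (1 / 2 : ℝ) ^ j * ‖1 - (χ (P g)) ^ 2 ^ j‖ ^ 2) := mul_le_mul_of_nonneg_left h2 (hb χ)
      _ = _ := by
        rw [mul_left_comm, mul_sum]
        congr 1
        apply sum_congr rfl
        intro j _
        unfold Q
        rw [P_pow hP, AddChar.map_nsmul_eq_pow]
        ring
  calc ∑ χ, b χ * ‖1 - χ (P g)‖ ≤ ∑ χ : AddChar B ℂ, Real.pi / 2 *
        ∑ j ∈ range (Nat.log 2 m), (1 / 2 : ℝ) ^ j * (b χ * Q χ (P (g ^ (2 ^ j : ℕ)))) :=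
        sum_le_sum fun χ _ => h1 χ
    _ = Real.pi / 2 * ∑ j ∈ range (Nat.log 2 m),
        (1 / 2 : ℝ) ^ j * ∑ χ : AddChar B ℂ, b χ * Q χ (P (g ^ (2 ^ j : ℕ))) := by
      rw [← mul_sum, sum_comm]
      congr 1
      apply sum_congr rfl
      intro j _
      rw [mul_sum]
    _ ≤ Real.pi / 2 * ∑ j ∈ range (Nat.log 2 m), N g := by
      apply mul_le_mul_of_nonneg_left _ (by positivity)
      apply sum_le_sum
      intro j _
      calc (1 / 2 : ℝ) ^ j * ∑ χ : AddChar B ℂ, b χ * Q χ (P (g ^ (2 ^ j : ℕ)))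
          ≤ (1 / 2 : ℝ) ^ j * ((2:ℝ)^j * N g) := by
            apply mul_le_mul_of_nonneg_left _ (by positivity)
            exact (hbN _).trans (N_pow_le N hN g j)
        _ = N g := by
            rw [← mul_assoc, ← mul_pow]; norm_num
    _ = _ := by rw [sum_const, card_range, nsmul_eq_mul]; ring

/-- the bound with `log log`, for several functions -/
theorem end_multiM {I V : Type*} [Fintype V] {P : G → B} (hP : ∀ g h, P (g * h) = P g + P h)
    {b : AddChar B ℂ → ℝ} (hb : ∀ χ, 0 ≤ b χ) (hB : 0 < ∑ χ, b χ) (C : Finset I) {N : I → G → ℝ}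
    (hN0 : ∀ i g, 0 ≤ N i g) (hN : ∀ i g h, N i (g * h) ≤ N i g + N i h)
    (hbN : ∀ i ∈ C, ∀ g, ∑ χ, b χ * Q χ (P g) ≤ N i g)
    {k : ℕ} (hk : 0 < k) (hCk : C.card ≤ k)
    (F : G → V) (hF : ∀ g h, F g = F h → ∀ χ : AddChar B ℂ, 0 < b χ → χ (P g) = χ (P h))
    {s : ℕ} (Qs : I → Finset G)
    (hs : Fintype.card V < 2 ^ (s + 1) ∨ ∀ i ∈ C, ∃ S : Finset G, S.card ≤ s ∧
      ∀ q ∈ Qs i, ∃ p ∈ S, ∀ χ : AddChar B ℂ, 0 < b χ → χ (P q) = χ (P p)) {J : ℕ}
    (hJ : 4 * Real.pi * k * (s:ℝ) ^ 2 ≤ 2 ^ J) :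
    ∃ b' : AddChar B ℂ → ℝ, (∀ χ, 0 ≤ b' χ) ∧ (∀ χ, b' χ ≤ b χ) ∧
      (∑ χ, b χ) / 2 ≤ ∑ χ, b' χ ∧
      ∀ i ∈ C, ∀ g ∈ Qs i, ∑ χ, b' χ * ‖1 - χ (P g)‖ ≤ (1 + Real.pi * J) * N i g := by
  classical
  set T := ∑ χ, b χ with hTdef
  have hpos : ∀ χ, 0 < b χ / T → 0 < b χ := by
    intro χ hχ
    by_contra hcon
    push Not at hcon
    have : b χ / T ≤ 0 := div_nonpos_of_nonpos_of_nonneg hcon hB.le
    linarith
  obtain ⟨b', hb'0, hb'le, hb'half, hb'Q⟩ := endgame_multi (X := AddChar B ℂ)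
    (G := G) (V := V) C
    (fun χ γ => χ (P γ))
    (fun χ γ => χ.norm_apply _)
    (fun χ γ γ' => by rw [hP, AddChar.map_add_eq_mul])
    (fun χ => b χ / T) (fun χ => div_nonneg (hb χ) hB.le)
    (fun i γ => N i γ / T)
    (fun i γ => div_nonneg (hN0 i _) hB.le)
    (fun i γ γ' => by
      rw [← add_div]
      exact div_le_div_of_nonneg_right (hN i _ _) hB.le)
    (1 / 2) (by norm_num)
    (fun i hi γ => by
      have h1 : ∀ χ : AddChar B ℂ, b χ / T * (1 - (χ (P γ)).re) =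
          b χ * Q χ (P γ) / (2 * T) := by
        intro χ
        rw [Q_eq]
        field_simp
        try ring
      simp_rw [h1]
      rw [← sum_div]
      calc (∑ χ, b χ * Q χ (P γ)) / (2 * T) ≤
            N i γ / (2 * T) :=
            div_le_div_of_nonneg_right (hbN i hi _) (by positivity)
        _ = _ := by field_simp)
    F
    (fun γ γ' h χ hχ => hF _ _ h χ (hpos χ hχ))
    s k hk hCk J
    (by
      rw [← sum_div, div_self hB.ne', mul_one]
      calc 8 * Real.pi * (1 / 2) * (k : ℝ) * (s:ℝ) ^ 2 = 4 * Real.pi * k * (s:ℝ) ^ 2 := by ring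
        _ ≤ _ := hJ)
    Qs
    (by
      rcases hs with hs | hs
      · exact Or.inl hs
      · right
        intro i hi
        obtain ⟨S, hS1, hS2⟩ := hs i hi
        refine ⟨S, hS1, ?_⟩
        intro q hq
        obtain ⟨p, hp, hpq⟩ := hS2 q hq
        exact ⟨p, hp, fun χ hχ => hpq χ (hpos χ hχ)⟩)
  rw [← sum_div, div_self hB.ne'] at hb'half hb'Q
  refine ⟨fun χ => T * b' χ, fun χ => mul_nonneg hB.le (hb'0 χ), fun χ => ?_, ?_, ?_⟩
  · have := hb'le χ
    rw [le_div_iff₀ hB] at this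
    linarith
  · rw [← mul_sum]
    have := mul_le_mul_of_nonneg_left hb'half hB.le
    linarith
  · intro i hi g hg
    have h1 := hb'Q i hi g hg
    calc ∑ χ, T * b' χ * ‖1 - χ (P g)‖ = T * ∑ χ, b' χ * ‖1 - χ (P g)‖ := by
          rw [mul_sum]
          exact sum_congr rfl fun χ _ => by ring
      _ ≤ T * ((1 + 2 * Real.pi * (1 / 2) * J) * (N i g / T)) :=
          mul_le_mul_of_nonneg_left h1 hB.le
      _ = _ := by field_simp

end Vale.Agent.P318.H794
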