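import Vale.Agent.P318.H794.Main

/-! The bound in closed form. -/

open Finset

set_option linter.unusedSectionVars false

namespace Vale.Agent.P318.H794

open Vale.Agent.P318.H867

theorem natlog_le (m : ℕ) (hm : 1 ≤ m) : (Nat.log 2 m : ℝ) ≤ 1.4428 * Real.log m := by
  have h1 : (2 : ℝ) ^ (Nat.log 2 m) ≤ m := by
    exact_mod_cast Nat.pow_log_le_self 2 (by omega)
  have h2 := Real.log_le_log (by positivity) h1
  rw [Real.log_pow] at h2
  have h3 := Real.log_two_gt_d9
  have h4 : (0 : ℝ) ≤ Nat.log 2 m := by positivity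
  nlinarith

theorem clog_le (s : ℕ) (hs : 1 ≤ s) : (Nat.clog 2 s : ℝ) ≤ 1 + 1.4428 * Real.log s := by
  have hs' : (1 : ℝ) ≤ s := by exact_mod_cast hs
  rcases Nat.eq_zero_or_pos (Nat.clog 2 s) with h | h
  · rw [h]
    have := Real.log_nonneg hs'
    push_cast
    linarith
  · have h1 : 2 ^ (Nat.clog 2 s - 1) < s := by
      apply Nat.pow_pred_clog_lt_self (by norm_num)
      by_contra h2
      have : s = 1 := by omega
      rw [this] at h
      simp at h
    have h2 : (2 : ℝ) ^ (Nat.clog 2 s - 1) ≤ s := by exact_mod_cast h1.le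
    have h3 := Real.log_le_log (by positivity) h2
    rw [Real.log_pow] at h3
    have h4 := Real.log_two_gt_d9
    have h5 : ((Nat.clog 2 s - 1 : ℕ) : ℝ) = (Nat.clog 2 s : ℝ) - 1 := by
      rw [Nat.cast_sub h]; simp
    rw [h5] at h3
    have h6 : (0 : ℝ) ≤ (Nat.clog 2 s : ℝ) - 1 := by
      rw [← h5]; positivity
    nlinarith

theorem clog_k_le (k : ℕ) (hk : 1 ≤ k) : (Nat.clog 2 k : ℝ) ≤ k - 1 := by
  have h1 : Nat.clog 2 k ≤ k - 1 := by
    apply Nat.clog_le_of_le_pow
    have : k - 1 < 2 ^ (k - 1) := Nat.lt_two_pow_self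
    omega
  have h2 : ((k - 1 : ℕ) : ℝ) = (k : ℝ) - 1 := by rw [Nat.cast_sub hk]; simp
  rw [← h2]
  exact_mod_cast h1

theorem glValue_nonneg {V : Type*} [Fintype V] [DecidableEq V] {c : V → V → ℝ}
    (hc : ∀ u v, 0 ≤ c u v) : 0 ≤ glValue c := by
  apply Real.sInf_nonneg
  rintro r ⟨d, ⟨⟨x, hx⟩, -⟩, -, rfl⟩
  have : 0 ≤ ∑ i, ∑ j, c i j * d i j :=
    sum_nonneg fun i _ => sum_nonneg fun j _ => mul_nonneg (hc i j) (by rw [hx]; positivity)
  linarith

/-- arithmetic for the second bound -/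
theorem ar3 {k l : ℝ} {ck cs : ℝ} (hk : 1 ≤ k) (hl : 0 ≤ l) (hck : ck ≤ k - 1)
    (hcs : cs ≤ 1.639 + 1.4428 * l) :
    300 * k ^ 2 + 70 * k * (1 + Real.pi * (4 + ck + 2 * cs)) ≤ 2000 * k * (k + l) := by
  have hpi := Real.pi_pos
  have hpi2 : Real.pi < 3.1416 := Real.pi_lt_d4
  have h1 : 4 + ck + 2 * cs ≤ k + 6.278 + 2.8856 * l := by linarith
  have h2 : Real.pi * (4 + ck + 2 * cs) ≤ Real.pi * (k + 6.278 + 2.8856 * l) :=
    mul_le_mul_of_nonneg_left h1 hpi.le
  have h3 : Real.pi * (k + 6.278 + 2.8856 * l) ≤ 3.1416 * (k + 6.278 + 2.8856 * l) :=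
    mul_le_mul_of_nonneg_right hpi2.le (by linarith)
  have h4 : 300 * k + 70 * (1 + Real.pi * (4 + ck + 2 * cs)) ≤ 2000 * (k + l) := by linarith
  have h5 := mul_le_mul_of_nonneg_left h4 (by linarith : (0 : ℝ) ≤ k)
  calc 300 * k ^ 2 + 70 * k * (1 + Real.pi * (4 + ck + 2 * cs)) =
        k * (300 * k + 70 * (1 + Real.pi * (4 + ck + 2 * cs))) := by ring
    _ ≤ k * (2000 * (k + l)) := h5
    _ = _ := by ring

/-- arithmetic for the first bound -/
theorem ar4 {k l : ℝ} {cm : ℝ} (hk : 1 ≤ k) (hl : 0 ≤ l) (hcm0 : 0 ≤ cm) (hcm : cm ≤ 1.4428 * l) :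
    300 * k ^ 2 + 70 * k * (Real.pi / 2 * cm) ≤ 2000 * k * (k + l) := by
  have hpi := Real.pi_pos
  have hpi2 : Real.pi < 3.1416 := Real.pi_lt_d4
  have h1 : Real.pi / 2 * cm ≤ 1.5708 * cm := mul_le_mul_of_nonneg_right (by linarith) hcm0
  have h4 : 300 * k + 70 * (Real.pi / 2 * cm) ≤ 2000 * (k + l) := by linarith
  have h5 := mul_le_mul_of_nonneg_left h4 (by linarith : (0 : ℝ) ≤ k)
  calc 300 * k ^ 2 + 70 * k * (Real.pi / 2 * cm) =
        k * (300 * k + 70 * (Real.pi / 2 * cm)) := by ring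
    _ ≤ k * (2000 * (k + l)) := h5
    _ = _ := by ring

theorem final {V G : Type*} [Fintype V] [DecidableEq V] [Nontrivial V] [AddCommGroup G]
    [Fintype G] [AddAction G V] {c : V → V → ℝ} (hc : ∀ u v, 0 ≤ c u v)
    (hs : ∀ u v, c u v = c v u) (hinv : ∀ (g : G) u v, c (g +ᵥ u) (g +ᵥ v) = c u v)
    {k : ℕ} (y : Fin k → V) (hy : ∀ v, ∃ (i : Fin k) (g : G), v = g +ᵥ y i)
    {M : ℕ} (hM : ∀ u, (univ.filter (fun v => c u v ≠ 0)).card ≤ M) :
    phi c ≤ 2000 * k * (k + Real.log (1 + min (M : ℝ)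
      (min (AddMonoid.exponent G : ℝ) (Real.log (Fintype.card V))))) * glValue c := by
  classical
  have hgl := glValue_nonneg hc
  have hn1 : 1 < Fintype.card V := Fintype.one_lt_card
  have hlogn : 0 ≤ Real.log (Fintype.card V) := Real.log_nonneg (by exact_mod_cast hn1.le)
  have hk1 : 1 ≤ k := by
    obtain ⟨i, -⟩ := hy (Classical.arbitrary V)
    have := i.2
    omega
  have hk1' : (1 : ℝ) ≤ k := by exact_mod_cast hk1
  set e := AddMonoid.exponent G with he
  have he0 : 0 < e := AddMonoid.ExponentExists.exponent_pos AddMonoid.ExponentExists.of_finite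
  have he1 : (1 : ℝ) ≤ e := by exact_mod_cast he0
  set L := Real.log (Fintype.card V) with hL
  set X := min (M : ℝ) (min (e : ℝ) L) with hX
  have hX0 : 0 ≤ X := le_min (by positivity) (le_min (by positivity) hlogn)
  have hlX : 0 ≤ Real.log (1 + X) := Real.log_nonneg (by linarith)
  rcases le_total (e : ℝ) (min (M : ℝ) L) with hcase | hcase
  · have hXe : X = e := by
      rw [hX]
      have h1 : (e : ℝ) ≤ M := hcase.trans (min_le_left _ _)
      have h2 : (e : ℝ) ≤ L := hcase.trans (min_le_right _ _)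
      rw [min_eq_left h2, min_eq_right h1]
    have h1 := bound_exp hc hs hinv y hy he0 (fun g => AddMonoid.exponent_nsmul_eq_zero g)
    rw [Fintype.card_fin] at h1
    refine h1.trans (mul_le_mul_of_nonneg_right ?_ hgl)
    apply ar4 hk1' hlX (by positivity)
    refine (natlog_le e he0).trans ?_
    apply mul_le_mul_of_nonneg_left _ (by norm_num)
    apply Real.log_le_log (by positivity)
    rw [hXe]; linarith
  · have hXe : X = min (M : ℝ) L := by
      rw [hX]
      apply le_antisymm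
      · exact le_min (min_le_left _ _) ((min_le_right _ _).trans (min_le_right _ _))
      · exact le_min (min_le_left _ _) (le_min hcase (min_le_right _ _))
    have h1 := bound_loglog hc hs hinv y hy hM
    rw [Fintype.card_fin] at h1
    refine h1.trans (mul_le_mul_of_nonneg_right ?_ hgl)
    set s := min M (Nat.log 2 (Fintype.card V)) with hsdef
    push_cast
    apply ar3 hk1' hlX (clog_k_le k hk1)
    rcases Nat.eq_zero_or_pos s with hs0 | hs0
    · rw [hs0]
      simp
      linarith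
    · have h2 : (s : ℝ) ≤ 1.4428 * X := by
        rw [hXe]
        rcases min_choice (M : ℝ) L with h3 | h3
        · rw [h3]
          have h4 : (s : ℝ) ≤ M := by exact_mod_cast min_le_left _ _
          have h5 : (0 : ℝ) ≤ M := by positivity
          linarith
        · rw [h3]
          have h4 : (s : ℝ) ≤ Nat.log 2 (Fintype.card V) := by exact_mod_cast min_le_right _ _
          exact h4.trans (natlog_le _ (by omega))
      have hs1 : (1 : ℝ) ≤ s := by exact_mod_cast hs0
      have h3 : Real.log s ≤ 0.4428 + Real.log (1 + X) := by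
        have h4 : Real.log s ≤ Real.log (1.4428 * (1 + X)) := by
          apply Real.log_le_log (by positivity)
          linarith
        rw [Real.log_mul (by norm_num) (by positivity)] at h4
        have h5 : Real.log 1.4428 ≤ 1.4428 - 1 := Real.log_le_sub_one_of_pos (by norm_num)
        linarith
      have h4 := clog_le s hs0
      linarith

end Vale.Agent.P318.H794
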