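import Vale.Agent.P318.H794.TransM
import Vale.Agent.P318.H794.Fin

/-! The gap of the Goemans-Linial relaxation for capacities with a nilpotent group of symmetries
with few orbits. -/

open Finset

set_option linter.unusedSectionVars false

namespace Vale.Agent.P318.H794

open Vale.Agent.P318.H867

variable {V G : Type} {I : Type*} [Fintype V] [DecidableEq V] [Group G] [Fintype G]
  [MulAction G V] [Fintype I] [DecidableEq I] [Nontrivial V] {c : V → V → ℝ}

theorem bound_expM {κ : ℕ} (hG : (⊤ : Subgroup G).lowerCentralSeries (κ + 1) = ⊥)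
    (hc : ∀ u v, 0 ≤ c u v) (hs : ∀ u v, c u v = c v u)
    (hinv : ∀ (g : G) u v, c (g • u) (g • v) = c u v)
    (y : I → V) (hy : ∀ v, ∃ (i : I) (g : G), v = g • y i)
    {m : ℕ} (hm : 0 < m) (hexp : m = Monoid.exponent (Abelianization G)) :
    phi c ≤ ((2 ^ κ) ^ 2 * (300 * (Fintype.card I : ℝ) ^ 2 +
      70 * (Fintype.card I : ℝ) * (Real.pi / 2 * Nat.log 2 m))) * glValue c := by
  classical
  have hpi := Real.pi_pos
  have hI : 0 < Fintype.card I := by
    obtain ⟨i, -⟩ := hy (Classical.arbitrary V)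
    exact Fintype.card_pos_iff.2 ⟨i⟩
  have hI' : (0 : ℝ) < Fintype.card I := by exact_mod_cast hI
  apply phi_le_gl' (by positivity)
  rintro d ⟨⟨x, hx⟩, htri⟩ h1
  refine phi_le_of_roundN hinv ?_ h1
  have hD : InvM G (sM G d) := invM_sM hx htri
  obtain ⟨B, _, _, _, P, hP, hPs, hPe, ι, _, X, hX1, hX2⟩ := transfer hG hx htri y
  refine roundN hP hPs hc hs hinv (M := Fintype.card V) (fun u => card_le_univ _) hD y hy
    (one_le_pow₀ (by norm_num)) X hX1 hX2 (by positivity) ?_
  intro b C x0 Qs hb hB hbN _ _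
  refine ⟨b, hb, fun _ => le_rfl, by linarith, ?_⟩
  intro i hi g _
  have h2 := end_expM hP hm (fun b => by rw [hexp]; exact hPe b) hb
    (N := fun g => 2 ^ κ * sM G d (x0 i) (g • x0 i))
    (fun g h => by
      rw [← mul_add]
      exact mul_le_mul_of_nonneg_left (N_mul hD (x0 i) g h) (by positivity))
    (hbN i hi) g
  rw [mul_assoc]
  exact h2

theorem bound_loglogM {κ : ℕ} (hG : (⊤ : Subgroup G).lowerCentralSeries (κ + 1) = ⊥)
    (hc : ∀ u v, 0 ≤ c u v) (hs : ∀ u v, c u v = c v u)
    (hinv : ∀ (g : G) u v, c (g • u) (g • v) = c u v)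
    (y : I → V) (hy : ∀ v, ∃ (i : I) (g : G), v = g • y i)
    {M : ℕ} (hM : ∀ u, (univ.filter (fun v => c u v ≠ 0)).card ≤ M) :
    phi c ≤ ((2 ^ κ) ^ 2 * (300 * (Fintype.card I : ℝ) ^ 2 +
      70 * (Fintype.card I : ℝ) * (1 + Real.pi * ((4 + Nat.clog 2 (Fintype.card I) +
        2 * Nat.clog 2 (min M (Nat.log 2 (Fintype.card V))) : ℕ) : ℝ)))) * glValue c := by
  classical
  have hpi := Real.pi_pos
  have hI : 0 < Fintype.card I := by
    obtain ⟨i, -⟩ := hy (Classical.arbitrary V)
    exact Fintype.card_pos_iff.2 ⟨i⟩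
  have hI' : (0 : ℝ) < Fintype.card I := by exact_mod_cast hI
  set s := min M (Nat.log 2 (Fintype.card V)) with hsdef
  set J := 4 + Nat.clog 2 (Fintype.card I) + 2 * Nat.clog 2 s with hJdef
  have hJ : 4 * Real.pi * (Fintype.card I : ℝ) * (s : ℝ) ^ 2 ≤ 2 ^ J := by
    have h1 : (s : ℝ) ≤ 2 ^ Nat.clog 2 s := by
      exact_mod_cast Nat.le_pow_clog (by norm_num : 1 < 2) s
    have h2 : (s : ℝ) ^ 2 ≤ (2 ^ Nat.clog 2 s) ^ 2 := by gcongr
    have h3 : Real.pi ≤ 4 := Real.pi_le_four
    have h4 : (Fintype.card I : ℝ) ≤ 2 ^ Nat.clog 2 (Fintype.card I) := by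
      exact_mod_cast Nat.le_pow_clog (by norm_num : 1 < 2) (Fintype.card I)
    calc 4 * Real.pi * (Fintype.card I : ℝ) * (s : ℝ) ^ 2 ≤
          4 * 4 * 2 ^ Nat.clog 2 (Fintype.card I) * (2 ^ Nat.clog 2 s) ^ 2 := by gcongr
      _ = 2 ^ J := by
        rw [hJdef, pow_add, pow_add, pow_mul']
        norm_num
  apply phi_le_gl' (by positivity)
  rintro d ⟨⟨x, hx⟩, htri⟩ h1
  refine phi_le_of_roundN hinv ?_ h1
  have hD : InvM G (sM G d) := invM_sM hx htri
  obtain ⟨B, _, _, _, P, hP, hPs, hPe, ι, _, X, hX1, hX2⟩ := transfer hG hx htri y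
  refine roundN hP hPs hc hs hinv hM hD y hy
    (one_le_pow₀ (by norm_num)) X hX1 hX2 (by positivity) ?_
  intro b C x0 Qs hb hB hbN hCne hS
  obtain ⟨i0, hi0⟩ := hCne
  have key := end_multiM (V := V) hP hb hB C (N := fun i g => 2 ^ κ * sM G d (x0 i) (g • x0 i))
    (fun i g => mul_nonneg (by positivity) (hD.nonneg _ _))
    (fun i g h => by
      rw [← mul_add]
      exact mul_le_mul_of_nonneg_left (N_mul hD (x0 i) g h) (by positivity))
    hbN hI (card_le_univ _)
    (fun g => g • x0 i0) ?_ (s := s) Qs ?_ hJ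
  · obtain ⟨b', h1, h2, h3, h4⟩ := key
    refine ⟨b', h1, h2, h3, fun i hi g hg => ?_⟩
    rw [mul_assoc]
    exact h4 i hi g hg
  · intro g h hgh χ hχ
    have h2 : (h⁻¹ * g) • x0 i0 = x0 i0 := by
      rw [mul_smul, hgh, inv_smul_smul]
    have h4 : χ (P (h⁻¹ * g)) = 1 := by
      apply char_oneM hb hχ
      refine (hbN i0 hi0 _).trans ?_
      rw [h2, hD.self, mul_zero]
    have h5 : χ (P g) = χ (P h) * χ (P (h⁻¹ * g)) := by
      rw [← AddChar.map_add_eq_mul, ← hP, mul_inv_cancel_left]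
    rw [h5, h4, mul_one]
  · rcases le_total M (Nat.log 2 (Fintype.card V)) with h2 | h2
    · right
      rw [hsdef, min_eq_left h2]
      exact hS
    · left
      rw [hsdef, min_eq_right h2]
      exact Nat.lt_pow_succ_log_self (by norm_num) _

theorem finalM {κ : ℕ} (hG : (⊤ : Subgroup G).lowerCentralSeries (κ + 1) = ⊥)
    (hc : ∀ u v, 0 ≤ c u v) (hs : ∀ u v, c u v = c v u)
    (hinv : ∀ (g : G) u v, c (g • u) (g • v) = c u v)
    {k : ℕ} (y : Fin k → V) (hy : ∀ v, ∃ (i : Fin k) (g : G), v = g • y i)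
    {M : ℕ} (hM : ∀ u, (univ.filter (fun v => c u v ≠ 0)).card ≤ M) :
    phi c ≤ 2000 * 4 ^ κ * k * (k + Real.log (1 + min (M : ℝ)
      (min (Monoid.exponent (Abelianization G) : ℝ) (Real.log (Fintype.card V))))) *
        glValue c := by
  classical
  have hgl := glValue_nonneg hc
  have hn1 : 1 < Fintype.card V := Fintype.one_lt_card
  have hlogn : 0 ≤ Real.log (Fintype.card V) := Real.log_nonneg (by exact_mod_cast hn1.le)
  have hk1 : 1 ≤ k := by
    obtain ⟨i, -⟩ := hy (Classical.arbitrary V)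
    have := i.2
    omega
  have hk1' : (1 : ℝ) ≤ k := by exact_mod_cast hk1
  have h4κ : ((2 : ℝ) ^ κ) ^ 2 = 4 ^ κ := by
    rw [← pow_mul, mul_comm, pow_mul]; norm_num
  have h4κ0 : (0 : ℝ) ≤ 4 ^ κ := by positivity
  set e := Monoid.exponent (Abelianization G) with he
  have he0 : 0 < e := Monoid.ExponentExists.exponent_pos Monoid.ExponentExists.of_finite
  have he1 : (1 : ℝ) ≤ e := by exact_mod_cast he0
  set L := Real.log (Fintype.card V) with hL
  set X := min (M : ℝ) (min (e : ℝ) L) with hX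
  have hX0 : 0 ≤ X := le_min (by positivity) (le_min (by positivity) hlogn)
  have hlX : 0 ≤ Real.log (1 + X) := Real.log_nonneg (by linarith)
  have hre : (2000 * 4 ^ κ * k * (k + Real.log (1 + X)) : ℝ) =
      4 ^ κ * (2000 * k * (k + Real.log (1 + X))) := by ring
  rw [hre]
  rcases le_total (e : ℝ) (min (M : ℝ) L) with hcase | hcase
  · have hXe : X = e := by
      rw [hX]
      have h1 : (e : ℝ) ≤ M := hcase.trans (min_le_left _ _)
      have h2 : (e : ℝ) ≤ L := hcase.trans (min_le_right _ _)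
      rw [min_eq_left h2, min_eq_right h1]
    have h1 := bound_expM hG hc hs hinv y hy he0 he
    rw [Fintype.card_fin, h4κ] at h1
    refine h1.trans (mul_le_mul_of_nonneg_right (mul_le_mul_of_nonneg_left ?_ h4κ0) hgl)
    apply ar4 hk1' hlX (by positivity)
    refine (natlog_le e he0).trans ?_
    apply mul_le_mul_of_nonneg_left _ (by norm_num)
    apply Real.log_le_log (by positivity)
    rw [hXe]; linarith
  · have hXe : X = min (M : ℝ) L := by
      rw [hX]
      apply le_antisymm
      · exact le_min (min_le_left _ _) ((min_le_right _ _).trans (min_le_right _ _))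
      · exact le_min (min_le_left _ _) (le_min hcase (min_le_right _ _))
    have h1 := bound_loglogM hG hc hs hinv y hy hM
    rw [Fintype.card_fin, h4κ] at h1
    refine h1.trans (mul_le_mul_of_nonneg_right (mul_le_mul_of_nonneg_left ?_ h4κ0) hgl)
    set s := min M (Nat.log 2 (Fintype.card V)) with hsdef
    push_cast
    apply ar3 hk1' hlX (clog_k_le k hk1)
    rcases Nat.eq_zero_or_pos s with hs0 | hs0
    · rw [hs0]
      simp
      linarith
    · have h2 : (s : ℝ) ≤ 1.4428 * X := by
        rw [hXe]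
        rcases min_choice (M : ℝ) L with h3 | h3
        · rw [h3]
          have h4 : (s : ℝ) ≤ M := by exact_mod_cast min_le_left _ _
          have h5 : (0 : ℝ) ≤ M := by positivity
          linarith
        · rw [h3]
          have h4 : (s : ℝ) ≤ Nat.log 2 (Fintype.card V) := by exact_mod_cast min_le_right _ _
          exact h4.trans (natlog_le _ (by omega))
      have hs1 : (1 : ℝ) ≤ s := by exact_mod_cast hs0
      have h3 : Real.log s ≤ 0.4428 + Real.log (1 + X) := by
        have h4 : Real.log s ≤ Real.log (1.4428 * (1 + X)) := by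
          apply Real.log_le_log (by positivity)
          linarith
        rw [Real.log_mul (by norm_num) (by positivity)] at h4
        have h5 : Real.log 1.4428 ≤ 1.4428 - 1 := Real.log_le_sub_one_of_pos (by norm_num)
        linarith
      have h4 := clog_le s hs0
      linarith

end Vale.Agent.P318.H794
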