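import Vale.Agent.P318.H794.Kruskal

/-! Kruskal's algorithm on the orbits of a group, not assumed commutative. -/

open Finset

set_option linter.unusedSectionVars false

namespace Vale.Agent.P318.H794

variable {V G Q : Type*} [Group G] [Fintype G] [MulAction G V] [Fintype Q] [DecidableEq Q]

/-- an invariant semimetric -/
structure InvM (G : Type*) {V : Type*} [Group G] [MulAction G V] (D : V → V → ℝ) :
    Prop where
  self : ∀ u, D u u = 0
  symm : ∀ u v, D u v = D v u
  nonneg : ∀ u v, 0 ≤ D u v
  tri : ∀ u v w, D u w ≤ D u v + D v w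
  inv : ∀ (g : G) u v, D (g • u) (g • v) = D u v

/-- a state of Kruskal's algorithm -/
structure KSt (D : V → V → ℝ) (y : Q → V) (δ : ℝ) (comp : Q → Q) (h : Q → G) (t : ℝ) :
    Prop where
  t0 : 0 ≤ t
  tδ : t ≤ δ
  s1 : ∀ i j, comp i = comp j →
    D (h i • y i) (h j • y j) ≤ (((univ.filter (fun l => comp l = comp i)).card : ℝ) - 1) * t
  s2 : ∀ i j, comp i ≠ comp j → ∀ g : G, t ≤ D (y i) (g • y j)
  s3 : ∀ i j, i ≠ j → comp i = comp j → ∀ g : G,
    D (h i • y i) (h j • y j) ≤ (Fintype.card Q : ℝ) * D (y i) (g • y j)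

theorem KSt.init {D : V → V → ℝ} (hD : InvM G D) (y : Q → V) {δ : ℝ} (hδ : 0 ≤ δ) :
    KSt D y δ id (fun _ : Q => (1 : G)) 0 where
  t0 := le_rfl
  tδ := hδ
  s1 := by
    intro i j hij
    simp only [id] at hij
    subst hij
    rw [hD.self, mul_zero]
  s2 := fun i j _ g => hD.nonneg _ _
  s3 := fun i j hij h _ => absurd h hij

theorem KSt.step {D : V → V → ℝ} (hD : InvM G D) {y : Q → V} {δ : ℝ} {comp : Q → Q}
    {h : Q → G} {t : ℝ} (st : KSt D y δ comp h t) {i0 j0 : Q} {g0 : G}
    (hne : comp i0 ≠ comp j0) (hle : D (y i0) (g0 • y j0) ≤ δ)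
    (hmin : ∀ i j, comp i ≠ comp j → ∀ g : G, D (y i0) (g0 • y j0) ≤ D (y i) (g • y j)) :
    ∃ (comp' : Q → Q) (h' : Q → G) (t' : ℝ), KSt D y δ comp' h' t' ∧
      (univ.image comp').card < (univ.image comp).card := by
  classical
  set t' := D (y i0) (g0 • y j0) with ht'
  have htt : t ≤ t' := st.s2 i0 j0 hne g0
  have ht'0 : 0 ≤ t' := st.t0.trans htt
  set s : G := h i0 * g0 * (h j0)⁻¹ with hs
  set comp' : Q → Q := fun i => if comp i = comp j0 then comp i0 else comp i with hc'
  set h' : Q → G := fun i => if comp i = comp j0 then s * h i else h i with hh'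
  have c1 : ∀ i, comp i = comp j0 → comp' i = comp i0 := fun i hi => by simp only [hc', if_pos hi]
  have c2 : ∀ i, comp i ≠ comp j0 → comp' i = comp i := fun i hi => by simp only [hc', if_neg hi]
  have k1 : ∀ i, comp i = comp j0 → h' i = s * h i := fun i hi => by simp only [hh', if_pos hi]
  have k2 : ∀ i, comp i ≠ comp j0 → h' i = h i := fun i hi => by simp only [hh', if_neg hi]
  set cls : Q → Finset Q := fun i => univ.filter (fun l => comp l = comp i) with hcls
  set cls' : Q → Finset Q := fun i => univ.filter (fun l => comp' l = comp' i) with hcls'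
  have hpos : ∀ i, (1 : ℝ) ≤ ((cls i).card : ℝ) := by
    intro i
    have : 0 < (cls i).card := card_pos.2 ⟨i, by simp [hcls]⟩
    exact_mod_cast this
  -- the size of the merged class
  have hmerge : ∀ i, comp' i = comp i0 → ((cls i0).card : ℝ) + (cls j0).card ≤ (cls' i).card := by
    intro i hi
    have hdisj : Disjoint (cls i0) (cls j0) := by
      rw [Finset.disjoint_left]
      intro l hl hl'
      simp only [hcls, mem_filter, mem_univ, true_and] at hl hl'
      exact hne (hl.symm.trans hl')
    have hsub : cls i0 ∪ cls j0 ⊆ cls' i := by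
      intro l hl
      rw [mem_union] at hl
      simp only [hcls, hcls', mem_filter, mem_univ, true_and] at hl ⊢
      rw [hi]
      rcases hl with hl | hl
      · rw [c2 l (by rw [hl]; exact hne), hl]
      · exact c1 l hl
    have := card_le_card hsub
    rw [card_union_of_disjoint hdisj] at this
    exact_mod_cast this
  have hsubc : ∀ i, ((cls i).card : ℝ) ≤ (cls' i).card := by
    intro i
    have hsub : cls i ⊆ cls' i := by
      intro l hl
      simp only [hcls, hcls', mem_filter, mem_univ, true_and] at hl ⊢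
      by_cases hi : comp i = comp j0
      · rw [c1 i hi, c1 l (hl.trans hi)]
      · rw [c2 i hi, c2 l (by rw [hl]; exact hi), hl]
    exact_mod_cast card_le_card hsub
  -- distances across
  have hcross : ∀ i j, comp i = comp i0 → comp j = comp j0 →
      D (h' i • y i) (h' j • y j) ≤ (((cls i0).card : ℝ) + (cls j0).card - 1) * t' := by
    intro i j hi hj
    have hi' : comp i ≠ comp j0 := by rw [hi]; exact hne
    rw [k2 i hi', k1 j hj]
    have e1 := st.s1 i i0 hi
    have e2 := st.s1 j0 j hj.symm
    have e3 : D (h i0 • y i0) ((s * h j0) • y j0) = t' := by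
      have : s * h j0 = h i0 * g0 := by rw [hs]; group
      rw [this, mul_smul, hD.inv]
    have e4 : D ((s * h j0) • y j0) ((s * h j) • y j) = D (h j0 • y j0) (h j • y j) := by
      rw [mul_smul s (h j0), mul_smul s (h j), hD.inv s]
    have e5 := hD.tri (h i • y i) (h i0 • y i0) ((s * h j) • y j)
    have e6 := hD.tri (h i0 • y i0) ((s * h j0) • y j0) ((s * h j) • y j)
    have e7 : (univ.filter (fun l => comp l = comp i)) = cls i0 := by simp only [hcls, hi]
    rw [e7] at e1
    have e8 : (((cls i0).card : ℝ) - 1) * t ≤ (((cls i0).card : ℝ) - 1) * t' :=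
      mul_le_mul_of_nonneg_left htt (by linarith [hpos i0])
    have e9 : (((cls j0).card : ℝ) - 1) * t ≤ (((cls j0).card : ℝ) - 1) * t' :=
      mul_le_mul_of_nonneg_left htt (by linarith [hpos j0])
    have e10 : (univ.filter (fun l => comp l = comp j0)) = cls j0 := rfl
    rw [e10] at e2
    nlinarith
  have hsame : ∀ i j, comp i = comp j → D (h' i • y i) (h' j • y j) =
      D (h i • y i) (h j • y j) := by
    intro i j hij
    by_cases hi : comp i = comp j0
    · rw [k1 i hi, k1 j (hij.symm.trans hi), mul_smul s (h i), mul_smul s (h j), hD.inv s]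
    · rw [k2 i hi, k2 j (by rw [← hij]; exact hi)]
  -- classification of pairs in the same new class
  have hclass : ∀ i j, comp' i = comp' j → comp i = comp j ∨
      (comp i = comp i0 ∧ comp j = comp j0) ∨ (comp i = comp j0 ∧ comp j = comp i0) := by
    intro i j hij
    by_cases hi : comp i = comp j0
    · by_cases hj : comp j = comp j0
      · left; rw [hi, hj]
      · right; right
        rw [c1 i hi, c2 j hj] at hij
        exact ⟨hi, hij.symm⟩
    · by_cases hj : comp j = comp j0
      · right; left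
        rw [c2 i hi, c1 j hj] at hij
        exact ⟨hij, hj⟩
      · left
        rw [c2 i hi, c2 j hj] at hij
        exact hij
  have hcardQ : ((cls i0).card : ℝ) + (cls j0).card ≤ Fintype.card Q := by
    have h1 := hmerge j0 (c1 j0 rfl)
    have h2 : ((cls' j0).card : ℝ) ≤ Fintype.card Q := by exact_mod_cast card_le_univ _
    exact h1.trans h2
  refine ⟨comp', h', t', ⟨ht'0, hle, ?_, ?_, ?_⟩, ?_⟩
  · intro i j hij
    change _ ≤ (((cls' i).card : ℝ) - 1) * t'
    rcases hclass i j hij with h1 | ⟨h1, h2⟩ | ⟨h1, h2⟩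
    · rw [hsame i j h1]
      refine (st.s1 i j h1).trans ?_
      have e1 := hpos i
      have e2 := hsubc i
      calc (((cls i).card : ℝ) - 1) * t ≤ (((cls i).card : ℝ) - 1) * t' :=
            mul_le_mul_of_nonneg_left htt (by linarith)
        _ ≤ _ := mul_le_mul_of_nonneg_right (by linarith) ht'0
    · refine (hcross i j h1 h2).trans (mul_le_mul_of_nonneg_right ?_ ht'0)
      have := hmerge i (by rw [c2 i (by rw [h1]; exact hne), h1])
      linarith
    · rw [hD.symm]
      refine (hcross j i h2 h1).trans (mul_le_mul_of_nonneg_right ?_ ht'0)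
      have := hmerge i (c1 i h1)
      linarith
  · intro i j hij g
    apply hmin i j
    intro h1
    apply hij
    by_cases hi : comp i = comp j0
    · rw [c1 i hi, c1 j (h1.symm.trans hi)]
    · rw [c2 i hi, c2 j (by rw [← h1]; exact hi), h1]
  · intro i j hne' hij g
    rcases hclass i j hij with h1 | ⟨h1, h2⟩ | ⟨h1, h2⟩
    · rw [hsame i j h1]
      exact st.s3 i j hne' h1 g
    · have e1 := hmin i j (by rw [h1, h2]; exact hne) g
      calc _ ≤ (((cls i0).card : ℝ) + (cls j0).card - 1) * t' := hcross i j h1 h2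
        _ ≤ (Fintype.card Q : ℝ) * t' := mul_le_mul_of_nonneg_right (by linarith) ht'0
        _ ≤ _ := mul_le_mul_of_nonneg_left e1 (by positivity)
    · have e1 := hmin i j (by rw [h1, h2]; exact hne.symm) g
      rw [hD.symm]
      calc _ ≤ (((cls i0).card : ℝ) + (cls j0).card - 1) * t' := hcross j i h2 h1
        _ ≤ (Fintype.card Q : ℝ) * t' := mul_le_mul_of_nonneg_right (by linarith) ht'0
        _ ≤ _ := mul_le_mul_of_nonneg_left e1 (by positivity)
  · apply card_lt_card
    rw [ssubset_iff_of_subset]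
    · refine ⟨comp j0, mem_image_of_mem _ (mem_univ _), ?_⟩
      intro hmem
      obtain ⟨i, -, hi⟩ := mem_image.1 hmem
      by_cases h1 : comp i = comp j0
      · rw [c1 i h1] at hi
        exact hne hi
      · rw [c2 i h1] at hi
        exact h1 hi
    · intro q hq
      obtain ⟨i, -, rfl⟩ := mem_image.1 hq
      by_cases h1 : comp i = comp j0
      · rw [c1 i h1]
        exact mem_image_of_mem _ (mem_univ _)
      · rw [c2 i h1]
        exact mem_image_of_mem _ (mem_univ _)

/-- **Kruskal.** -/
theorem kruskalM {D : V → V → ℝ} (hD : InvM G D) (y : Q → V) {δ : ℝ} (hδ : 0 ≤ δ) :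
    ∃ (comp : Q → Q) (h : Q → G),
      (∀ i j, comp i = comp j → D (h i • y i) (h j • y j) ≤ (Fintype.card Q : ℝ) * δ) ∧
      (∀ i j, comp i ≠ comp j → ∀ g : G, δ < D (y i) (g • y j)) ∧
      (∀ i j, i ≠ j → comp i = comp j → ∀ g : G,
        D (h i • y i) (h j • y j) ≤ (Fintype.card Q : ℝ) * D (y i) (g • y j)) := by
  classical
  have hex : ∃ N : ℕ, ∃ (comp : Q → Q) (h : Q → G) (t : ℝ), KSt D y δ comp h t ∧
      (univ.image comp).card = N := ⟨_, _, _, _, KSt.init hD y hδ, rfl⟩
  obtain ⟨comp, h, t, st, hN⟩ := Nat.find_spec hex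
  have hmin := fun N (hN : N < Nat.find hex) => Nat.find_min hex hN
  refine ⟨comp, h, ?_, ?_, st.s3⟩
  · intro i j hij
    refine (st.s1 i j hij).trans ?_
    have e1 : (((univ.filter (fun l => comp l = comp i)).card : ℝ)) ≤ Fintype.card Q := by
      exact_mod_cast card_le_univ _
    have e2 : (0 : ℝ) ≤ Fintype.card Q := by positivity
    calc _ ≤ (Fintype.card Q : ℝ) * t := mul_le_mul_of_nonneg_right (by linarith) st.t0
      _ ≤ _ := mul_le_mul_of_nonneg_left st.tδ e2
  · by_contra hcon
    push Not at hcon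
    obtain ⟨i1, j1, hne1, g1, hle1⟩ := hcon
    obtain ⟨p, hp, hpmin⟩ := exists_min_image
      ((univ : Finset (Q × Q × G)).filter (fun p => comp p.1 ≠ comp p.2.1))
      (fun p => D (y p.1) (p.2.2 • y p.2.1)) ⟨(i1, j1, g1), by simpa using hne1⟩
    simp only [mem_filter, mem_univ, true_and] at hp hpmin
    obtain ⟨comp', h', t', st', hlt⟩ := st.step hD (i0 := p.1) (j0 := p.2.1) (g0 := p.2.2) hp
      ((hpmin (i1, j1, g1) hne1).trans hle1) (fun i j hij g => hpmin (i, j, g) hij)
    rw [hN] at hlt
    exact hmin _ hlt ⟨comp', h', t', st', rfl⟩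

end Vale.Agent.P318.H794
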