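import Vale.Agent.P318.H794.MPD

/-! Descent of matrix valued positive definite functions from a nilpotent group to an abelian
quotient. -/

set_option linter.unusedSectionVars false

namespace Vale.Agent.P318.H794

open Finset ComplexConjugate commutatorElement Vale.Agent.P318.H612

theorem mnilp {I : Type*} (κ : ℕ) : ∀ (G : Type) [Group G] [Fintype G],
    (⊤ : Subgroup G).lowerCentralSeries (κ + 1) = ⊥ → ∀ {M : G → I → I → ℂ}, MPD M →
    ∃ (B : Type) (_ : CommGroup B) (_ : Fintype B) (p : G →* B), Function.Surjective p ∧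
      ∃ M' : B → I → I → ℂ, MPD M' ∧
        (∀ g i j, DM M' (p g) i j ≤ 2 ^ κ * DM M g i j) ∧
        (∀ i, ∑ g, ((M 1 i i).re - (M g i i).re) ≤
          2 ^ κ * ∑ g, ((M' 1 i i).re - (M' (p g) i i).re)) := by
  induction κ with
  | zero =>
    intro G _ _ hG M hM
    rw [zero_add, Subgroup.lowerCentralSeries_one_eq_bot_iff] at hG
    refine ⟨G, { (inferInstance : Group G) with mul_comm := mul_comm' }, inferInstance,
      MonoidHom.id G, Function.surjective_id, M, hM, ?_, ?_⟩
    · intro g i j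
      rw [pow_zero, one_mul]
      exact le_rfl
    · intro i
      rw [pow_zero, one_mul]
      exact le_rfl
  | succ κ ih =>
    intro G _ _ hG M hM
    classical
    set Z : Subgroup G := (⊤ : Subgroup G).lowerCentralSeries (κ + 1) with hZ
    have hZc : ∀ z ∈ Z, ∀ g, z * g = g * z := by
      intro z hz g
      have h1 : ⁅z, g⁆ ∈ (⊤ : Subgroup G).lowerCentralSeries (κ + 1 + 1) := by
        rw [Subgroup.lowerCentralSeries_succ]
        exact Subgroup.commutator_mem_commutator hz (Subgroup.mem_top g)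
      rw [hG, Subgroup.mem_bot] at h1
      exact commutatorElement_eq_one_iff_mul_comm.1 h1
    let _ : CommGroup Z := { (inferInstance : Group Z) with
      mul_comm := fun a b => Subtype.ext (hZc a.1 a.2 b.1) }
    let e : Additive Z → G := fun a => ((Additive.toMul a : Z) : G)
    have he : ∀ a b, e (a + b) = e a * e b := fun a b => rfl
    have hc : ∀ a g, e a * g = g * e a := fun a g => hZc _ (Additive.toMul a).2 g
    have hNC : ∀ ψ : AddChar (Additive Z) ℂ, ψ ≠ 0 →
        ∃ a x y, x * y = e a * (y * x) ∧ ψ a ≠ 1 := by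
      intro ψ hψ
      by_contra hcon
      push Not at hcon
      apply hψ
      have key : ∀ (z : G) (hz : z ∈ Z), ψ (Additive.ofMul ⟨z, hz⟩) = 1 := by
        intro z hz
        have hz' : z ∈ Subgroup.closure
            { x | ∃ p ∈ (⊤ : Subgroup G).lowerCentralSeries κ, ∃ q ∈ (⊤ : Subgroup G), ⁅p, q⁆ = x } := hz
        refine Subgroup.closure_induction
          (p := fun w hw => ψ (Additive.ofMul (⟨w, hw⟩ : Z)) = 1) ?_ ?_ ?_ ?_ hz'
        · rintro w ⟨a, ha, b, hb, rfl⟩
          refine hcon (Additive.ofMul ⟨⁅a, b⁆, _⟩) a b ?_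
          show a * b = ⁅a, b⁆ * (b * a)
          rw [commutatorElement_def]
          group
        · exact AddChar.map_zero_eq_one ψ
        · intro x y hx hy h1 h2
          have : (Additive.ofMul (⟨x * y, Subgroup.mul_mem _ hx hy⟩ : Z)) =
            Additive.ofMul (⟨x, hx⟩ : Z) + Additive.ofMul (⟨y, hy⟩ : Z) := rfl
          rw [this, AddChar.map_add_eq_mul, h1, h2, one_mul]
        · intro x hx h1
          have : (Additive.ofMul (⟨x⁻¹, Subgroup.inv_mem _ hx⟩ : Z)) =
            -Additive.ofMul (⟨x, hx⟩ : Z) := rfl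
          rw [this, AddChar.map_neg_eq_conj, h1, map_one]
      ext a
      rw [AddChar.zero_apply]
      exact key _ (Additive.toMul a).2
    obtain ⟨M₁, hM₁, hinv, hi, hii⟩ := mstep he hc hNC hM
    have : Z.Normal := by rw [hZ]; infer_instance
    obtain ⟨M₂, hM₂, hM₂'⟩ := hM₁.descend (QuotientGroup.mk' Z) (QuotientGroup.mk'_surjective Z)
      (by
        intro g n hn i j
        have hn' : n ∈ Z := (QuotientGroup.eq_one_iff n).1 hn
        exact hinv g (Additive.ofMul ⟨n, hn'⟩) i j)
    have hQ : (⊤ : Subgroup (G ⧸ Z)).lowerCentralSeries (κ + 1) = ⊥ := by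
      rw [← Subgroup.map_top_of_surjective (QuotientGroup.mk' Z) (QuotientGroup.mk'_surjective Z),
        ← Subgroup.map_lowerCentralSeries, ← hZ, Subgroup.map_eq_bot_iff, QuotientGroup.ker_mk']
    obtain ⟨B, _, _, p, hp, M', hM', ha, hb⟩ := ih (G ⧸ Z) hQ hM₂
    obtain ⟨c, hcs⟩ := hom_sum (QuotientGroup.mk' Z) (QuotientGroup.mk'_surjective Z)
    have h1 : ∀ i j, M₂ 1 i j = M₁ 1 i j := by
      intro i j
      have := hM₂' 1 i j
      rwa [map_one] at this
    refine ⟨B, inferInstance, inferInstance, p.comp (QuotientGroup.mk' Z),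
      hp.comp (QuotientGroup.mk'_surjective Z), M', hM', ?_, ?_⟩
    · intro g i j
      have e1 := ha (QuotientGroup.mk' Z g) i j
      have e0 : DM M₂ (QuotientGroup.mk' Z g) i j = DM M₁ g i j := by
        unfold DM
        rw [hM₂', h1, h1]
      rw [e0] at e1
      have e2 := hi g i j
      have e3 : (2 : ℝ) ^ κ * DM M₁ g i j ≤ 2 ^ κ * (2 * DM M g i j) :=
        mul_le_mul_of_nonneg_left e2 (by positivity)
      calc DM M' (p.comp (QuotientGroup.mk' Z) g) i j
          ≤ (2 : ℝ) ^ κ * DM M₁ g i j := e1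
        _ ≤ 2 ^ κ * (2 * DM M g i j) := e3
        _ = _ := by ring
    · intro i
      have e1 := hcs (fun q => (M₂ 1 i i).re - (M₂ q i i).re)
      have e2 := hcs (fun q => (M' 1 i i).re - (M' (p q) i i).re)
      simp only [hM₂', h1] at e1
      calc ∑ g, ((M 1 i i).re - (M g i i).re) ≤ 2 * ∑ g, ((M₁ 1 i i).re - (M₁ g i i).re) := hii i
        _ = 2 * (c * ∑ q, ((M₂ 1 i i).re - (M₂ q i i).re)) := by rw [e1, h1]
        _ ≤ 2 * (c * (2 ^ κ * ∑ q, ((M' 1 i i).re - (M' (p q) i i).re))) := by
          have := hb i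
          gcongr
        _ = 2 ^ (κ + 1) * (c * ∑ q, ((M' 1 i i).re - (M' (p q) i i).re)) := by ring
        _ = _ := by rw [← e2]; rfl

end Vale.Agent.P318.H794
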