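import Vale.Agent.P318.H612.Nilp

/-! Matrix valued positive definite functions and their descent along a central series. -/

set_option linter.unusedSectionVars false

namespace Vale.Agent.P318.H794

open Finset ComplexConjugate Vale.Agent.P318.H612

variable {G : Type*} [Group G] {I : Type*}

/-- matrix valued positive definite functions, in Gram form -/
def MPD (M : G → I → I → ℂ) : Prop :=
  ∃ (ι : Type) (_ : Fintype ι) (U : G → I → ι → ℂ),
    ∀ x y i j, ∑ l, conj (U x i l) * U y j l = M (x⁻¹ * y) i j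

/-- the squared distance of the Gram vectors at `(1, i)` and `(g, j)` -/
def DM (M : G → I → I → ℂ) (g : G) (i j : I) : ℝ :=
  (M 1 i i).re + (M 1 j j).re - 2 * (M g i j).re

theorem MPD.diag {M : G → I → I → ℂ} (h : MPD M) (i : I) : PD (fun g => M g i i) := by
  obtain ⟨ι, hι, U, hU⟩ := h
  exact ⟨ι, hι, fun x => U x i, fun x y => hU x y i i⟩

theorem MPD.cs {M : G → I → I → ℂ} (h : MPD M) (g : G) (i j : I) :
    ‖M g i j‖ ≤ Real.sqrt (M 1 i i).re * Real.sqrt (M 1 j j).re := by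
  obtain ⟨ι, _, U, hU⟩ := h
  have hx : ∀ x i, ∑ l, ‖U x i l‖ ^ 2 = (M 1 i i).re := by
    intro x i
    have h1 := hU x x i i
    have e : ∑ l, conj (U x i l) * U x i l = ((∑ l, ‖U x i l‖ ^ 2 : ℝ) : ℂ) := by
      push_cast
      refine Finset.sum_congr rfl fun l _ => ?_
      rw [Complex.conj_mul']
    rw [e, inv_mul_cancel] at h1
    rw [← h1, Complex.ofReal_re]
  have h2 := hU 1 g i j
  simp only [inv_one, one_mul] at h2
  rw [← h2, ← Real.sqrt_mul (by rw [← hx 1 i]; positivity)]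
  have h3 : ‖∑ l, conj (U 1 i l) * U g j l‖ ≤ ∑ l, ‖U 1 i l‖ * ‖U g j l‖ := by
    refine (norm_sum_le _ _).trans (le_of_eq ?_)
    refine Finset.sum_congr rfl fun l _ => ?_
    rw [norm_mul, RCLike.norm_conj]
  have h4 : (∑ l, ‖U 1 i l‖ * ‖U g j l‖) ^ 2 ≤ (∑ l, ‖U 1 i l‖ ^ 2) * ∑ l, ‖U g j l‖ ^ 2 :=
    Finset.sum_mul_sq_le_sq_mul_sq _ _ _
  rw [hx, hx] at h4
  exact h3.trans (Real.le_sqrt_of_sq_le h4)

theorem MPD.diag_nonneg {M : G → I → I → ℂ} (h : MPD M) (i : I) : 0 ≤ (M 1 i i).re :=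
  (h.diag i).one_eq.2

theorem MPD.DM_nonneg {M : G → I → I → ℂ} (h : MPD M) (g : G) (i j : I) : 0 ≤ DM M g i j := by
  have h1 := h.cs g i j
  have h2 := Complex.re_le_norm (M g i j)
  have h3 := Real.sq_sqrt (h.diag_nonneg i)
  have h4 := Real.sq_sqrt (h.diag_nonneg j)
  unfold DM
  nlinarith [sq_nonneg (Real.sqrt (M 1 i i).re - Real.sqrt (M 1 j j).re)]

theorem MPD.sum {κ : Type} (s : Finset κ) {M : κ → G → I → I → ℂ} (h : ∀ r ∈ s, MPD (M r)) :
    MPD (fun g i j => ∑ r ∈ s, M r g i j) := by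
  classical
  have h' : ∀ r : s, MPD (M r) := fun r => h r r.2
  choose ι hι U hU using h'
  refine ⟨Σ r : s, ι r, inferInstance, fun x i q => U q.1 x i q.2, fun x y i j => ?_⟩
  show _ = ∑ r ∈ s, M r (x⁻¹ * y) i j
  rw [Fintype.sum_sigma, ← Finset.sum_coe_sort s]
  exact Finset.sum_congr rfl fun r _ => hU r x y i j

theorem MPD.square {F : G → I → I → ℂ} (hF : MPD F) :
    MPD (fun g i j => (((Real.sqrt (F 1 i i).re * Real.sqrt (F 1 j j).re)⁻¹ * ‖F g i j‖ ^ 2 : ℝ) :
      ℂ)) := by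
  obtain ⟨ι, _, U, hU⟩ := hF
  refine ⟨ι × ι, inferInstance,
    fun x i q => (((Real.sqrt (F 1 i i).re)⁻¹ : ℝ) : ℂ) * (conj (U x i q.1) * U x i q.2),
    fun x y i j => ?_⟩
  have e : (((Real.sqrt (F 1 i i).re * Real.sqrt (F 1 j j).re)⁻¹ * ‖F (x⁻¹ * y) i j‖ ^ 2 : ℝ) :
      ℂ) = (((Real.sqrt (F 1 i i).re)⁻¹ : ℝ) : ℂ) * (((Real.sqrt (F 1 j j).re)⁻¹ : ℝ) : ℂ) *
        (conj (F (x⁻¹ * y) i j) * F (x⁻¹ * y) i j) := by
    rw [Complex.conj_mul', mul_inv]; push_cast; rfl
  beta_reduce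
  rw [e, ← hU x y i j, map_sum, Finset.sum_mul_sum, Fintype.sum_prod_type, Finset.mul_sum]
  refine Finset.sum_congr rfl fun l _ => ?_
  rw [Finset.mul_sum]
  refine Finset.sum_congr rfl fun l' _ => ?_
  simp only [map_mul, Complex.conj_conj, Complex.conj_ofReal]
  ring

variable {A : Type} [AddCommGroup A] [Fintype A]

theorem MPD.cpt {e : A → G} (he : ∀ a b, e (a + b) = e a * e b) (hc : ∀ a g, e a * g = g * e a)
    {M : G → I → I → ℂ} (hM : MPD M) (ψ : AddChar A ℂ) :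
    MPD (fun g i j => H612.cpt e (fun g => M g i j) ψ g) := by
  obtain ⟨ι, _, U, hU⟩ := hM
  set N : ℂ := (Fintype.card A : ℂ) with hN
  have hN0 : N ≠ 0 := by
    rw [hN]; exact_mod_cast Fintype.card_ne_zero
  refine ⟨ι, inferInstance, fun x i l => N⁻¹ * ∑ a, conj (ψ a) * U (x * e a) i l,
    fun x y i j => ?_⟩
  have key : ∀ a, ∑ b, conj (ψ b) * M ((x * e a)⁻¹ * (y * e b)) i j =
      conj (ψ a) * (N * H612.cpt e (fun g => M g i j) ψ (x⁻¹ * y)) := by
    intro a
    rw [H612.cpt, mul_inv_cancel_left₀ hN0, Finset.mul_sum]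
    rw [← Equiv.sum_comp (Equiv.addLeft a)
      (fun b => conj (ψ b) * M ((x * e a)⁻¹ * (y * e b)) i j)]
    refine Finset.sum_congr rfl fun b _ => ?_
    simp only [Equiv.coe_addLeft]
    rw [AddChar.map_add_eq_mul, map_mul, mul_assoc]
    congr 3
    rw [he, mul_inv_rev, ← e_neg he, ← mul_assoc, ← mul_assoc, hc (-a), e_neg he]
    rw [mul_assoc x⁻¹, mul_assoc x⁻¹, mul_assoc x⁻¹, mul_assoc x⁻¹]
    congr 1
    rw [mul_assoc (e a)⁻¹, ← hc a y, inv_mul_cancel_left]
  calc ∑ l, conj (N⁻¹ * ∑ a, conj (ψ a) * U (x * e a) i l) *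
        (N⁻¹ * ∑ b, conj (ψ b) * U (y * e b) j l)
      = N⁻¹ * N⁻¹ * ∑ l, ∑ a, ∑ b,
          (ψ a) * (conj (ψ b) * (conj (U (x * e a) i l) * U (y * e b) j l)) := by
        rw [Finset.mul_sum]
        refine Finset.sum_congr rfl fun l _ => ?_
        have hNc : conj N = N := by rw [hN, Complex.conj_natCast]
        rw [map_mul, map_inv₀, hNc, map_sum, mul_mul_mul_comm, Finset.sum_mul_sum]
        congr 1
        refine Finset.sum_congr rfl fun a _ => Finset.sum_congr rfl fun b _ => ?_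
        rw [map_mul, Complex.conj_conj]; ring
    _ = N⁻¹ * N⁻¹ * ∑ a, ψ a * ∑ b, conj (ψ b) * M ((x * e a)⁻¹ * (y * e b)) i j := by
        congr 1
        rw [Finset.sum_comm]
        refine Finset.sum_congr rfl fun a _ => ?_
        rw [Finset.sum_comm, Finset.mul_sum]
        refine Finset.sum_congr rfl fun b _ => ?_
        rw [← hU, Finset.mul_sum, Finset.mul_sum]
    _ = N⁻¹ * N⁻¹ * ∑ a : A, (N * H612.cpt e (fun g => M g i j) ψ (x⁻¹ * y)) := by
        congr 1
        refine Finset.sum_congr rfl fun a _ => ?_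
        rw [key, ← mul_assoc, Complex.mul_conj', AddChar.norm_apply]; simp
    _ = H612.cpt e (fun g => M g i j) ψ (x⁻¹ * y) := by
        rw [Finset.sum_const, Finset.card_univ, nsmul_eq_mul, ← hN]
        field_simp

theorem MPD.descend {H : Type*} [Group H] {M : G → I → I → ℂ} (h : MPD M) (p : G →* H)
    (hp : Function.Surjective p) (hk : ∀ g n, p n = 1 → ∀ i j, M (g * n) i j = M g i j) :
    ∃ M' : H → I → I → ℂ, MPD M' ∧ ∀ g i j, M' (p g) i j = M g i j := by
  have hinv : ∀ g g', p g = p g' → ∀ i j, M g i j = M g' i j := by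
    intro g g' e i j
    have := hk g (g⁻¹ * g') (by rw [map_mul, map_inv, e, inv_mul_cancel]) i j
    rw [mul_inv_cancel_left] at this
    exact this.symm
  obtain ⟨s, hs⟩ := hp.hasRightInverse
  refine ⟨fun q => M (s q), ?_, fun g i j => hinv _ _ (hs _) i j⟩
  obtain ⟨ι, _, U, hU⟩ := h
  refine ⟨ι, inferInstance, fun x i l => U (s x) i l, fun x y i j => ?_⟩
  rw [hU]
  apply hinv
  rw [map_mul, map_inv, hs, hs, hs]

/-- arithmetic of the square step -/
theorem square_arith {ti tj s r : ℝ} (hi : 0 ≤ ti) (hj : 0 ≤ tj)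
    (hs : s ≤ Real.sqrt ti * Real.sqrt tj) (hr : r ≤ s) :
    ti + tj - 2 * ((Real.sqrt ti * Real.sqrt tj)⁻¹ * s ^ 2) ≤ 2 * (ti + tj - 2 * r) := by
  have h3 := Real.sq_sqrt hi
  have h4 := Real.sq_sqrt hj
  have hm0 : 0 ≤ Real.sqrt ti * Real.sqrt tj := by positivity
  have hamgm : 2 * (Real.sqrt ti * Real.sqrt tj) ≤ ti + tj := by
    nlinarith [sq_nonneg (Real.sqrt ti - Real.sqrt tj)]
  set m := Real.sqrt ti * Real.sqrt tj with hm
  rcases hm0.eq_or_lt with h0 | h0
  · rw [← h0] at hs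
    rw [← h0, inv_zero, zero_mul]
    linarith
  · have h5 : 2 * s - m ≤ m⁻¹ * s ^ 2 := by
      have h6 : m * (2 * s - m) ≤ s ^ 2 := by nlinarith [sq_nonneg (s - m)]
      calc 2 * s - m = m⁻¹ * (m * (2 * s - m)) := by field_simp
        _ ≤ m⁻¹ * s ^ 2 := mul_le_mul_of_nonneg_left h6 (inv_nonneg.2 hm0)
    linarith

theorem mstep [Fintype G] {e : A → G} (he : ∀ a b, e (a + b) = e a * e b)
    (hc : ∀ a g, e a * g = g * e a)
    (hNC : ∀ ψ : AddChar A ℂ, ψ ≠ 0 → ∃ a x y, x * y = e a * (y * x) ∧ ψ a ≠ 1)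
    {M : G → I → I → ℂ} (hM : MPD M) :
    ∃ M' : G → I → I → ℂ, MPD M' ∧ (∀ g a i j, M' (g * e a) i j = M' g i j) ∧
      (∀ g i j, DM M' g i j ≤ 2 * DM M g i j) ∧
      (∀ i, ∑ g, ((M 1 i i).re - (M g i i).re) ≤
        2 * ∑ g, ((M' 1 i i).re - (M' g i i).re)) := by
  classical
  have H : ∀ ψ : AddChar A ℂ, ∃ F' : G → I → I → ℂ, MPD F' ∧
      (∀ g a i j, F' (g * e a) i j = F' g i j) ∧
      (∀ g i j, DM F' g i j ≤ 2 * DM (fun g i j => cpt e (fun g => M g i j) ψ g) g i j) ∧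
      (∀ i, ∑ g, ((cpt e (fun g => M g i i) ψ 1).re - (cpt e (fun g => M g i i) ψ g).re) ≤
        2 * ∑ g, ((F' 1 i i).re - (F' g i i).re)) := by
    intro ψ
    have hP := hM.cpt he hc ψ
    by_cases hψ : ψ = 0
    · refine ⟨_, hP, ?_, ?_, ?_⟩
      · intro g a i j
        rw [cpt_mul he, hψ, AddChar.zero_apply, one_mul]
      · intro g i j
        have := hP.DM_nonneg g i j
        linarith
      · intro i
        have : 0 ≤ ∑ g, ((cpt e (fun g => M g i i) ψ 1).re - (cpt e (fun g => M g i i) ψ g).re) :=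
          Finset.sum_nonneg fun g _ => sub_nonneg.2 ((hP.diag i).re_le g)
        linarith
    · obtain ⟨a, x, y, hxy, ha⟩ := hNC ψ hψ
      set F : G → I → I → ℂ := fun g i j => cpt e (fun g => M g i j) ψ g with hFdef
      have hd : ∀ i, (((Real.sqrt (F 1 i i).re * Real.sqrt (F 1 i i).re)⁻¹ * ‖F 1 i i‖ ^ 2 : ℝ)) =
          (F 1 i i).re := by
        intro i
        have h1 := (hP.diag i).one_eq
        have h2 : 0 ≤ (F 1 i i).re := h1.2
        have hn1 : ‖F 1 i i‖ = (F 1 i i).re := by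
          have h3 : F 1 i i = ((F 1 i i).re : ℂ) := h1.1
          rw [h3, Complex.norm_real, Real.norm_of_nonneg h2, Complex.ofReal_re]
        rw [Real.mul_self_sqrt h2, hn1]
        rcases h2.eq_or_lt with h0 | h0
        · rw [← h0]; simp
        · rw [sq, inv_mul_cancel_left₀ h0.ne']
      refine ⟨_, hP.square, ?_, ?_, ?_⟩
      · intro g b i j
        have : F (g * e b) i j = ψ b * F g i j := cpt_mul he _ ψ g b
        simp only [this, norm_mul, AddChar.norm_apply, one_mul]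
      · intro g i j
        unfold DM
        simp only [Complex.ofReal_re]
        rw [hd i, hd j]
        exact square_arith (hP.diag_nonneg i) (hP.diag_nonneg j) (hP.cs g i j)
          (Complex.re_le_norm _)
      · intro i
        obtain ⟨F', h1, h2, h3, h4⟩ := square_step (hP.diag i) (hc a) ha
          (fun g => cpt_mul he _ ψ g a) hxy (sum_cpt_eq_zero he _ ha)
        refine h4.trans (le_of_eq ?_)
        congr 1
        apply Finset.sum_congr rfl
        intro g _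
        have h5 : ∀ g, (F' g).re = (Real.sqrt (F 1 i i).re * Real.sqrt (F 1 i i).re)⁻¹ *
            ‖F g i i‖ ^ 2 := by
          intro g
          rw [h2 g, ← Complex.ofReal_mul, Complex.ofReal_re, Real.mul_self_sqrt
            (hP.diag_nonneg i)]
        rw [h5, h5]
        simp only [Complex.ofReal_re]
  choose F' h1 h2 h3 h4 using H
  refine ⟨fun g i j => ∑ ψ, F' ψ g i j, MPD.sum univ fun ψ _ => h1 ψ, ?_, ?_, ?_⟩
  · intro g a i j
    exact Finset.sum_congr rfl fun ψ _ => h2 ψ g a i j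
  · intro g i j
    have e1 : DM (fun g i j => ∑ ψ, F' ψ g i j) g i j = ∑ ψ, DM (F' ψ) g i j := by
      unfold DM
      simp only [Complex.re_sum, Finset.sum_sub_distrib, Finset.sum_add_distrib, Finset.mul_sum]
    have e2 : DM M g i j =
        ∑ ψ : AddChar A ℂ, DM (fun g i j => cpt e (fun g => M g i j) ψ g) g i j := by
      unfold DM
      simp only [Finset.sum_sub_distrib, Finset.sum_add_distrib, ← Finset.mul_sum,
        ← Complex.re_sum, sum_cpt he]
    rw [e1, e2, Finset.mul_sum]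
    exact Finset.sum_le_sum fun ψ _ => h3 ψ g i j
  · intro i
    simp only [Complex.re_sum, ← Finset.sum_sub_distrib]
    have e1 : ∑ g, ((M 1 i i).re - (M g i i).re) =
        ∑ ψ : AddChar A ℂ, ∑ g, ((cpt e (fun g => M g i i) ψ 1).re -
          (cpt e (fun g => M g i i) ψ g).re) := by
      rw [Finset.sum_comm]
      refine Finset.sum_congr rfl fun g _ => ?_
      rw [Finset.sum_sub_distrib, ← Complex.re_sum, ← Complex.re_sum, sum_cpt he, sum_cpt he]
    have e2 : ∑ g, ∑ ψ : AddChar A ℂ, ((F' ψ 1 i i).re - (F' ψ g i i).re) =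
        ∑ ψ : AddChar A ℂ, ∑ g, ((F' ψ 1 i i).re - (F' ψ g i i).re) := Finset.sum_comm
    rw [e1, e2, Finset.mul_sum]
    exact Finset.sum_le_sum fun ψ _ => h4 ψ i

end Vale.Agent.P318.H794
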