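import Vale.Agent.P318.H867.Main
import Vale.Agent.P318.H794.Core
import Vale.Agent.P318.H794.End

/-! The gap of the Goemans-Linial relaxation for capacities with an abelian group of symmetries
with few orbits. -/

open Finset

set_option linter.unusedSectionVars false

namespace Vale.Agent.P318.H794

open Vale.Agent.P318.H867

variable {V G I : Type*} [Fintype V] [DecidableEq V] [AddCommGroup G] [Fintype G] [DecidableEq G]
  [AddAction G V] [Fintype I] [DecidableEq I]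

theorem N_add {D : V → V → ℝ} (hD : InvMetric G D) (u : V) (g h : G) :
    D u ((g + h) +ᵥ u) ≤ D u (g +ᵥ u) + D u (h +ᵥ u) := by
  have h1 := hD.tri u (g +ᵥ u) ((g + h) +ᵥ u)
  have h2 : D (g +ᵥ u) ((g + h) +ᵥ u) = D u (h +ᵥ u) := by rw [add_vadd, hD.inv]
  rw [h2] at h1
  exact h1

/-- from the invariant sums to a feasible `d` -/
theorem phi_le_of_core {c : V → V → ℝ} (hinv : ∀ (g : G) u v, c (g +ᵥ u) (g +ᵥ v) = c u v)
    {d : V → V → ℝ} {R : ℝ}
    (h : phi c * ∑ u, ∑ v, sD G d u v ≤ R * ∑ u, ∑ v, c u v * sD G d u v)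
    (h1 : (∑ u, ∑ v, d u v) / 2 = 1) : phi c ≤ R * ((∑ u, ∑ v, c u v * d u v) / 2) := by
  have hG0 : (0 : ℝ) < Fintype.card G := by exact_mod_cast Fintype.card_pos
  have e1 := sum_c_sD (G := G) (c := c) (d := d) hinv
  have e2 := sum_c_sD (G := G) (c := fun _ _ : V => (1 : ℝ)) (d := d) (fun _ _ _ => rfl)
  simp only [one_mul] at e2
  rw [e1, e2] at h
  have h2 : ∑ u, ∑ v, d u v = 2 := by linarith
  rw [h2] at h
  have h3 : (Fintype.card G : ℝ) * phi c ≤
      (Fintype.card G : ℝ) * (R * ((∑ u, ∑ v, c u v * d u v) / 2)) := by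
    linarith
  exact le_of_mul_le_mul_left h3 hG0

theorem phi_le_gl' [Nontrivial V] {c : V → V → ℝ} {B : ℝ} (hB : 0 < B)
    (h : ∀ d : V → V → ℝ, IsNegTypeSemimetric d → (∑ i, ∑ j, d i j) / 2 = 1 →
      phi c ≤ B * ((∑ i, ∑ j, c i j * d i j) / 2)) :
    phi c ≤ B * glValue c := by
  rw [← div_le_iff₀' hB]
  apply le_csInf
  · obtain ⟨d, hd, h1⟩ := exists_feasible V
    exact ⟨_, d, hd, h1, rfl⟩
  · rintro r ⟨d, hd, h1, rfl⟩
    rw [div_le_iff₀' hB]
    exact h d hd h1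

variable [Nontrivial V] {c : V → V → ℝ}

theorem bound_exp (hc : ∀ u v, 0 ≤ c u v) (hs : ∀ u v, c u v = c v u)
    (hinv : ∀ (g : G) u v, c (g +ᵥ u) (g +ᵥ v) = c u v)
    (y : I → V) (hy : ∀ v, ∃ (i : I) (g : G), v = g +ᵥ y i)
    {m : ℕ} (hm : 0 < m) (hexp : ∀ g : G, m • g = 0) :
    phi c ≤ (300 * (Fintype.card I : ℝ) ^ 2 +
      70 * (Fintype.card I : ℝ) * (Real.pi / 2 * Nat.log 2 m)) * glValue c := by
  have hpi := Real.pi_pos
  have hI : 0 < Fintype.card I := by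
    obtain ⟨i, -⟩ := hy (Classical.arbitrary V)
    exact Fintype.card_pos_iff.2 ⟨i⟩
  have hI' : (0 : ℝ) < Fintype.card I := by exact_mod_cast hI
  apply phi_le_gl' (by positivity)
  rintro d ⟨⟨x, hx⟩, htri⟩ h1
  refine phi_le_of_core hinv ?_ h1
  have hD : InvMetric G (sD G d) := invMetric_sD hx htri
  refine core hc hs hinv (M := Fintype.card V) (fun u => card_le_univ _) hx htri y hy
    (by positivity) ?_
  intro b C x0 Qs hb hB hbN _ _
  refine ⟨b, hb, fun _ => le_rfl, by linarith, ?_⟩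
  intro i hi g _
  exact end_exp hm hexp hb (N := fun g => sD G d (x0 i) (g +ᵥ x0 i))
    (fun g h => N_add hD (x0 i) g h) (hbN i hi) g

theorem bound_loglog (hc : ∀ u v, 0 ≤ c u v) (hs : ∀ u v, c u v = c v u)
    (hinv : ∀ (g : G) u v, c (g +ᵥ u) (g +ᵥ v) = c u v)
    (y : I → V) (hy : ∀ v, ∃ (i : I) (g : G), v = g +ᵥ y i)
    {M : ℕ} (hM : ∀ u, (univ.filter (fun v => c u v ≠ 0)).card ≤ M) :
    phi c ≤ (300 * (Fintype.card I : ℝ) ^ 2 +
      70 * (Fintype.card I : ℝ) * (1 + Real.pi * ((4 + Nat.clog 2 (Fintype.card I) +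
        2 * Nat.clog 2 (min M (Nat.log 2 (Fintype.card V))) : ℕ) : ℝ))) * glValue c := by
  have hpi := Real.pi_pos
  have hI : 0 < Fintype.card I := by
    obtain ⟨i, -⟩ := hy (Classical.arbitrary V)
    exact Fintype.card_pos_iff.2 ⟨i⟩
  have hI' : (0 : ℝ) < Fintype.card I := by exact_mod_cast hI
  set s := min M (Nat.log 2 (Fintype.card V)) with hsdef
  set J := 4 + Nat.clog 2 (Fintype.card I) + 2 * Nat.clog 2 s with hJdef
  have hJ : 4 * Real.pi * (Fintype.card I : ℝ) * (s : ℝ) ^ 2 ≤ 2 ^ J := by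
    have h1 : (s : ℝ) ≤ 2 ^ Nat.clog 2 s := by
      exact_mod_cast Nat.le_pow_clog (by norm_num : 1 < 2) s
    have h2 : (s : ℝ) ^ 2 ≤ (2 ^ Nat.clog 2 s) ^ 2 := by gcongr
    have h3 : Real.pi ≤ 4 := Real.pi_le_four
    have h4 : (Fintype.card I : ℝ) ≤ 2 ^ Nat.clog 2 (Fintype.card I) := by
      exact_mod_cast Nat.le_pow_clog (by norm_num : 1 < 2) (Fintype.card I)
    calc 4 * Real.pi * (Fintype.card I : ℝ) * (s : ℝ) ^ 2 ≤
          4 * 4 * 2 ^ Nat.clog 2 (Fintype.card I) * (2 ^ Nat.clog 2 s) ^ 2 := by gcongr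
      _ = 2 ^ J := by
        rw [hJdef, pow_add, pow_add, pow_mul']
        norm_num
  apply phi_le_gl' (by positivity)
  rintro d ⟨⟨x, hx⟩, htri⟩ h1
  refine phi_le_of_core hinv ?_ h1
  have hD : InvMetric G (sD G d) := invMetric_sD hx htri
  refine core hc hs hinv hM hx htri y hy (by positivity) ?_
  intro b C x0 Qs hb hB hbN hCne hP
  obtain ⟨i0, hi0⟩ := hCne
  refine end_multi (V := V) hb hB C (N := fun i g => sD G d (x0 i) (g +ᵥ x0 i))
    (fun i g => hD.nonneg _ _) (fun i g h => N_add hD (x0 i) g h) hbN hI (card_le_univ _)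
    (fun g => g +ᵥ x0 i0) ?_ (s := s) Qs ?_ hJ
  · intro g h hgh χ hχ
    have h2 : (g - h) +ᵥ x0 i0 = x0 i0 := by
      have h3 : h +ᵥ ((g - h) +ᵥ x0 i0) = h +ᵥ x0 i0 := by
        rw [← add_vadd, add_sub_cancel]
        exact hgh
      exact (vadd_left_cancel_iff h).1 h3
    have h4 : χ (g - h) = 1 := by
      apply char_one hb hχ
      refine (hbN i0 hi0 _).trans ?_
      rw [h2, hD.self]
    have h5 : χ g = χ h * χ (g - h) := by
      rw [← AddChar.map_add_eq_mul, add_sub_cancel]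
    rw [h5, h4, mul_one]
  · rcases le_total M (Nat.log 2 (Fintype.card V)) with h2 | h2
    · right
      rw [hsdef, min_eq_left h2]
      exact hP
    · left
      rw [hsdef, min_eq_right h2]
      exact Nat.lt_pow_succ_log_self (by norm_num) _

end Vale.Agent.P318.H794
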