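import Vale.Agent.P318.H794.Spec

/-! Parts of the rounding theorem. -/

open Finset
open scoped ComplexConjugate

set_option linter.unusedSectionVars false

namespace Vale.Agent.P318.H794

open Vale.Agent.P318.H867

theorem abs_add_abs_le (z : ℂ) : |z.re| + |z.im| ≤ Real.sqrt 2 * ‖z‖ := by
  have h1 : ‖z‖ ^ 2 = |z.re| ^ 2 + |z.im| ^ 2 := by
    rw [Complex.sq_norm, Complex.normSq_apply, sq_abs, sq_abs]; ring
  have h2 : (Real.sqrt 2) ^ 2 = 2 := Real.sq_sqrt (by norm_num)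
  have h3 : (|z.re| + |z.im|) ^ 2 ≤ (Real.sqrt 2 * ‖z‖) ^ 2 := by
    rw [mul_pow, h2, h1]
    nlinarith [sq_nonneg (|z.re| - |z.im|)]
  exact le_of_sq_le_sq h3 (by positivity)

variable {V : Type*} [Fintype V] [DecidableEq V]

/-- coarea for complex valued functions -/
theorem coarea_complex {c : V → V → ℝ} (hc0 : ∀ u v, 0 ≤ c u v) (hs : ∀ u v, c u v = c v u)
    (f : V → ℂ) :
    phi c * ∑ u, ∑ v, ‖f u - f v‖ ≤ Real.sqrt 2 * ∑ u, ∑ v, c u v * ‖f u - f v‖ := by
  have h1 := coarea hc0 hs (fun v => (f v).re)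
  have h2 := coarea hc0 hs (fun v => (f v).im)
  calc phi c * ∑ u, ∑ v, ‖f u - f v‖
      ≤ phi c * ∑ u, ∑ v, (|(f u).re - (f v).re| + |(f u).im - (f v).im|) := by
        refine mul_le_mul_of_nonneg_left ?_ (phi_nonneg hc0)
        refine Finset.sum_le_sum fun u _ => Finset.sum_le_sum fun v _ => ?_
        exact Complex.norm_le_abs_re_add_abs_im _
    _ = phi c * ∑ u, ∑ v, |(f u).re - (f v).re| + phi c * ∑ u, ∑ v, |(f u).im - (f v).im| := by
        simp only [Finset.sum_add_distrib]; ring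
    _ ≤ ∑ u, ∑ v, c u v * |(f u).re - (f v).re| + ∑ u, ∑ v, c u v * |(f u).im - (f v).im| :=
        add_le_add h1 h2
    _ = ∑ u, ∑ v, c u v * (|(f u).re - (f v).re| + |(f u).im - (f v).im|) := by
        simp only [← Finset.sum_add_distrib, mul_add]
    _ ≤ ∑ u, ∑ v, c u v * (Real.sqrt 2 * ‖f u - f v‖) := by
        refine Finset.sum_le_sum fun u _ => Finset.sum_le_sum fun v _ => ?_
        exact mul_le_mul_of_nonneg_left (abs_add_abs_le (f u - f v)) (hc0 u v)
    _ = _ := by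
        rw [Finset.mul_sum]
        refine Finset.sum_congr rfl fun u _ => ?_
        rw [Finset.mul_sum]
        refine Finset.sum_congr rfl fun v _ => ?_
        ring

/-- a function of modulus one on `W`, zero elsewhere, of total sum zero, is spread -/
theorem spread {f : V → ℂ} {W : Finset V} (h1 : ∀ u ∈ W, ‖f u‖ = 1) (h0 : ∀ u, u ∉ W → f u = 0)
    (hsum : ∑ u, f u = 0) : ((W.card : ℝ)) ^ 2 ≤ ∑ u, ∑ v, ‖f u - f v‖ := by
  have hW : ∑ u ∈ W, f u = 0 := by
    rw [← hsum]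
    exact sum_subset (subset_univ _) fun u _ hu => h0 u hu
  have hzero : ∑ u ∈ W, ∑ v ∈ W, (f u * conj (f v)).re = 0 := by
    have e1 : ((∑ u ∈ W, f u) * conj (∑ v ∈ W, f v)).re = 0 := by rw [hW]; simp
    rw [map_sum, sum_mul_sum, Complex.re_sum] at e1
    rw [← e1]
    exact sum_congr rfl fun u _ => by rw [Complex.re_sum]
  have hpt : ∀ u ∈ W, ∀ v ∈ W, 1 - (f u * conj (f v)).re ≤ ‖f u - f v‖ := by
    intro u hu v hv
    have e1 : ‖f u - f v‖ ^ 2 = 2 - 2 * (f u * conj (f v)).re := by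
      rw [Complex.sq_norm, Complex.normSq_sub, ← Complex.sq_norm, ← Complex.sq_norm, h1 u hu,
        h1 v hv]
      ring
    have e2 : ‖f u - f v‖ ≤ 2 := by
      have := norm_sub_le (f u) (f v)
      rw [h1 u hu, h1 v hv] at this
      linarith
    nlinarith [norm_nonneg (f u - f v)]
  calc ((W.card : ℝ)) ^ 2 = ∑ u ∈ W, ∑ v ∈ W, (1 - (f u * conj (f v)).re) := by
        simp only [sum_sub_distrib, hzero, sum_const, nsmul_eq_mul]
        ring
    _ ≤ ∑ u ∈ W, ∑ v ∈ W, ‖f u - f v‖ :=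
        sum_le_sum fun u hu => sum_le_sum fun v hv => hpt u hu v hv
    _ ≤ ∑ u ∈ W, ∑ v, ‖f u - f v‖ :=
        sum_le_sum fun u _ => sum_le_sum_of_subset_of_nonneg (subset_univ _)
          fun v _ _ => norm_nonneg _
    _ ≤ ∑ u, ∑ v, ‖f u - f v‖ :=
        sum_le_sum_of_subset_of_nonneg (subset_univ _)
          fun u _ _ => sum_nonneg fun v _ => norm_nonneg _

variable {G : Type*} [AddCommGroup G] [Fintype G] [DecidableEq G] [AddAction G V]

/-- distance to the orbit of `o` -/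
noncomputable def fo (G : Type*) {V : Type*} [AddCommGroup G] [Fintype G] [AddAction G V]
    (D : V → V → ℝ) (o u : V) : ℝ :=
  (univ : Finset G).inf' ⟨0, mem_univ _⟩ (fun g : G => D u (g +ᵥ o))

theorem fo_le (D : V → V → ℝ) (o u : V) (g : G) : fo G D o u ≤ D u (g +ᵥ o) :=
  inf'_le (fun g : G => D u (g +ᵥ o)) (mem_univ g)

theorem fo_ex (D : V → V → ℝ) (o u : V) : ∃ g : G, fo G D o u = D u (g +ᵥ o) := by
  obtain ⟨g, -, hg⟩ := exists_mem_eq_inf' (s := (univ : Finset G)) ⟨0, mem_univ _⟩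
    (fun g : G => D u (g +ᵥ o))
  exact ⟨g, hg⟩

theorem fo_lip {D : V → V → ℝ} (hD : InvMetric G D) (o u v : V) :
    |fo G D o u - fo G D o v| ≤ D u v := by
  have h : ∀ u v, fo G D o u - fo G D o v ≤ D u v := by
    intro u v
    obtain ⟨g, hg⟩ := fo_ex (G := G) D o v
    have h1 := fo_le (G := G) D o u g
    have h2 := hD.tri u v (g +ᵥ o)
    linarith
  rw [abs_le]
  constructor
  · have := h v u
    rw [hD.symm] at this
    linarith
  · exact h u v

theorem fo_nonneg {D : V → V → ℝ} (hD : InvMetric G D) (o u : V) : 0 ≤ fo G D o u := by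
  obtain ⟨g, hg⟩ := fo_ex (G := G) D o u
  rw [hg]
  exact hD.nonneg _ _

/-- the total distance is controlled by the distances to one orbit and by that orbit -/
theorem total_le {D : V → V → ℝ} (hD : InvMetric G D) (o : V) :
    (Fintype.card G : ℝ) * ∑ u, ∑ v, D u v ≤
      (Fintype.card G : ℝ) * (2 * (Fintype.card V : ℝ) * ∑ u, fo G D o u) +
        (Fintype.card V : ℝ) ^ 2 * ∑ h : G, D o (h +ᵥ o) := by
  choose s hs using fun u => fo_ex (G := G) D o u
  set P := ∑ h : G, D o (h +ᵥ o) with hP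
  have e1 : ∀ g : G, ∑ u, ∑ v, D (g +ᵥ u) v = ∑ u, ∑ v, D u v := fun g =>
    Equiv.sum_comp (AddAction.toPerm g) (fun u => ∑ v, D u v)
  have e2 : ∀ u v, ∑ g : G, D (g +ᵥ u) v ≤
      (Fintype.card G : ℝ) * (fo G D o u + fo G D o v) + P := by
    intro u v
    have e3 : ∑ g : G, D ((g + s u) +ᵥ o) (s v +ᵥ o) = P := by
      rw [hP, ← Equiv.sum_comp ((Equiv.addRight (s u)).trans (Equiv.subLeft (s v)))
        (fun h => D o (h +ᵥ o))]
      apply sum_congr rfl
      intro g _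
      have e4 : ((Equiv.addRight (s u)).trans (Equiv.subLeft (s v))) g = s v - (g + s u) := rfl
      rw [e4, ← hD.inv (g + s u) o, ← add_vadd]
      congr 2
      abel
    have e5 : ∀ g : G, D (g +ᵥ u) v ≤ (fo G D o u + fo G D o v) +
        D ((g + s u) +ᵥ o) (s v +ᵥ o) := by
      intro g
      have h1 : D (g +ᵥ u) ((g + s u) +ᵥ o) = fo G D o u := by
        rw [add_vadd, hD.inv, hs]
      have h2 : D (s v +ᵥ o) v = fo G D o v := by rw [hD.symm, hs]
      have h3 := hD.tri (g +ᵥ u) ((g + s u) +ᵥ o) v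
      have h4 := hD.tri ((g + s u) +ᵥ o) (s v +ᵥ o) v
      linarith
    calc ∑ g : G, D (g +ᵥ u) v ≤ ∑ g : G, ((fo G D o u + fo G D o v) +
          D ((g + s u) +ᵥ o) (s v +ᵥ o)) := sum_le_sum fun g _ => e5 g
      _ = _ := by
        rw [sum_add_distrib, e3, sum_const, card_univ, nsmul_eq_mul]
  have e6 : (Fintype.card G : ℝ) * ∑ u, ∑ v, D u v = ∑ u, ∑ v, ∑ g : G, D (g +ᵥ u) v := by
    calc (Fintype.card G : ℝ) * ∑ u, ∑ v, D u v = ∑ g : G, ∑ u, ∑ v, D u v := by
          rw [sum_const, card_univ, nsmul_eq_mul]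
      _ = ∑ g : G, ∑ u, ∑ v, D (g +ᵥ u) v := sum_congr rfl fun g _ => (e1 g).symm
      _ = ∑ u, ∑ g : G, ∑ v, D (g +ᵥ u) v := sum_comm
      _ = _ := sum_congr rfl fun u _ => sum_comm
  rw [e6]
  calc ∑ u, ∑ v, ∑ g : G, D (g +ᵥ u) v ≤
        ∑ u, ∑ v, ((Fintype.card G : ℝ) * (fo G D o u + fo G D o v) + P) :=
        sum_le_sum fun u _ => sum_le_sum fun v _ => e2 u v
    _ = _ := by
      simp only [sum_add_distrib, mul_add, sum_const, card_univ, nsmul_eq_mul, ← mul_sum]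
      ring

end Vale.Agent.P318.H794
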