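import Vale.Agent.P318.H794.Parts
import Vale.Agent.P318.H794.KruskalM

/-! Parts of the rounding theorem, for groups that need not be commutative. -/

open Finset

set_option linter.unusedSectionVars false

namespace Vale.Agent.P318.H794

variable {V G : Type*} [Fintype V] [Group G] [Fintype G] [MulAction G V]

/-- distance to the orbit of `o` -/
noncomputable def foM (G : Type*) {V : Type*} [Group G] [Fintype G] [MulAction G V]
    (D : V → V → ℝ) (o u : V) : ℝ :=
  (univ : Finset G).inf' ⟨1, mem_univ _⟩ (fun g : G => D u (g • o))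

theorem foM_le (D : V → V → ℝ) (o u : V) (g : G) : foM G D o u ≤ D u (g • o) :=
  inf'_le (fun g : G => D u (g • o)) (mem_univ g)

theorem foM_ex (D : V → V → ℝ) (o u : V) : ∃ g : G, foM G D o u = D u (g • o) := by
  obtain ⟨g, -, hg⟩ := exists_mem_eq_inf' (s := (univ : Finset G)) ⟨1, mem_univ _⟩
    (fun g : G => D u (g • o))
  exact ⟨g, hg⟩

theorem foM_lip {D : V → V → ℝ} (hD : InvM G D) (o u v : V) :
    |foM G D o u - foM G D o v| ≤ D u v := by
  have h : ∀ u v, foM G D o u - foM G D o v ≤ D u v := by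
    intro u v
    obtain ⟨g, hg⟩ := foM_ex (G := G) D o v
    have h1 := foM_le (G := G) D o u g
    have h2 := hD.tri u v (g • o)
    linarith
  rw [abs_le]
  constructor
  · have := h v u
    rw [hD.symm] at this
    linarith
  · exact h u v

theorem foM_nonneg {D : V → V → ℝ} (hD : InvM G D) (o u : V) : 0 ≤ foM G D o u := by
  obtain ⟨g, hg⟩ := foM_ex (G := G) D o u
  rw [hg]
  exact hD.nonneg _ _

theorem total_leM {D : V → V → ℝ} (hD : InvM G D) (o : V) :
    (Fintype.card G : ℝ) * ∑ u, ∑ v, D u v ≤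
      (Fintype.card G : ℝ) * (2 * (Fintype.card V : ℝ) * ∑ u, foM G D o u) +
        (Fintype.card V : ℝ) ^ 2 * ∑ h : G, D o (h • o) := by
  choose s hs using fun u => foM_ex (G := G) D o u
  set P := ∑ h : G, D o (h • o) with hP
  have e1 : ∀ g : G, ∑ u, ∑ v, D (g • u) v = ∑ u, ∑ v, D u v := fun g =>
    Equiv.sum_comp (MulAction.toPerm g) (fun u => ∑ v, D u v)
  have e2 : ∀ u v, ∑ g : G, D (g • u) v ≤
      (Fintype.card G : ℝ) * (foM G D o u + foM G D o v) + P := by
    intro u v
    have e3 : ∑ g : G, D ((g * s u) • o) (s v • o) = P := by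
      rw [hP, ← Equiv.sum_comp ((Equiv.mulRight (s u)).trans ((Equiv.inv G).trans
        (Equiv.mulRight (s v)))) (fun h => D o (h • o))]
      apply sum_congr rfl
      intro g _
      have e4 : ((Equiv.mulRight (s u)).trans ((Equiv.inv G).trans (Equiv.mulRight (s v)))) g =
          (g * s u)⁻¹ * s v := rfl
      rw [e4, ← hD.inv (g * s u) o, ← mul_smul (g * s u) ((g * s u)⁻¹ * s v), mul_inv_cancel_left]
    have e5 : ∀ g : G, D (g • u) v ≤ (foM G D o u + foM G D o v) +
        D ((g * s u) • o) (s v • o) := by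
      intro g
      have h1 : D (g • u) ((g * s u) • o) = foM G D o u := by
        rw [mul_smul, hD.inv, hs]
      have h2 : D (s v • o) v = foM G D o v := by rw [hD.symm, hs]
      have h3 := hD.tri (g • u) ((g * s u) • o) v
      have h4 := hD.tri ((g * s u) • o) (s v • o) v
      linarith
    calc ∑ g : G, D (g • u) v ≤ ∑ g : G, ((foM G D o u + foM G D o v) +
          D ((g * s u) • o) (s v • o)) := sum_le_sum fun g _ => e5 g
      _ = _ := by
        rw [sum_add_distrib, e3, sum_const, card_univ, nsmul_eq_mul]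
  have e6 : (Fintype.card G : ℝ) * ∑ u, ∑ v, D u v = ∑ u, ∑ v, ∑ g : G, D (g • u) v := by
    calc (Fintype.card G : ℝ) * ∑ u, ∑ v, D u v = ∑ g : G, ∑ u, ∑ v, D u v := by
          rw [sum_const, card_univ, nsmul_eq_mul]
      _ = ∑ g : G, ∑ u, ∑ v, D (g • u) v := sum_congr rfl fun g _ => (e1 g).symm
      _ = ∑ u, ∑ g : G, ∑ v, D (g • u) v := sum_comm
      _ = _ := sum_congr rfl fun u _ => sum_comm
  rw [e6]
  calc ∑ u, ∑ v, ∑ g : G, D (g • u) v ≤
        ∑ u, ∑ v, ((Fintype.card G : ℝ) * (foM G D o u + foM G D o v) + P) :=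
        sum_le_sum fun u _ => sum_le_sum fun v _ => e2 u v
    _ = _ := by
      simp only [sum_add_distrib, mul_add, sum_const, card_univ, nsmul_eq_mul, ← mul_sum]
      ring

end Vale.Agent.P318.H794
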