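import Vale.Agent.P318.H867.Fourier
import Vale.Agent.P318.H794.MNilp

/-! Spectral weights of vector valued functions on a finite abelian group, and real Gram vectors
of matrix valued positive definite functions. -/

open Finset

set_option linter.unusedSectionVars false

namespace Vale.Agent.P318.H794

open Vale.Agent.P318.H867

section spec

variable {G ι : Type*} [AddCommGroup G] [Fintype G] [DecidableEq G] [Fintype ι]

/-- spectral weight -/
noncomputable def mf (X : G → ι → ℝ) (χ : AddChar G ℂ) : ℝ :=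
  (∑ e, ‖∑ g : G, ((X g e : ℝ) : ℂ) * χ g‖ ^ 2) / (Fintype.card G : ℝ) ^ 2

/-- spectral weight of a difference -/
noncomputable def df (X Y : G → ι → ℝ) (χ : AddChar G ℂ) : ℝ :=
  (∑ e, ‖∑ g : G, ((X g e - Y g e : ℝ) : ℂ) * χ g‖ ^ 2) / (Fintype.card G : ℝ) ^ 2

theorem mf_nonneg (X : G → ι → ℝ) (χ : AddChar G ℂ) : 0 ≤ mf X χ := by
  unfold mf; positivity

theorem df_nonneg (X Y : G → ι → ℝ) (χ : AddChar G ℂ) : 0 ≤ df X Y χ := by
  unfold df; positivity

theorem sum_df (X Y : G → ι → ℝ) :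
    ∑ χ : AddChar G ℂ, df X Y χ = (∑ g : G, ∑ e, (X g e - Y g e) ^ 2) / (Fintype.card G : ℝ) := by
  have hn : (Fintype.card G : ℝ) ≠ 0 := by
    have := Fintype.card_pos (α := G); positivity
  unfold df
  rw [← sum_div, sum_comm]
  have h : ∀ e, ∑ χ : AddChar G ℂ, ‖∑ g : G, ((X g e - Y g e : ℝ) : ℂ) * χ g‖ ^ 2 =
      (Fintype.card G : ℝ) * ∑ g : G, (X g e - Y g e) ^ 2 := fun e =>
    parseval (fun g => X g e - Y g e)
  simp_rw [h]
  rw [← mul_sum, sum_comm]
  field_simp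

theorem mf_le (X Y : G → ι → ℝ) (χ : AddChar G ℂ) : mf X χ ≤ 2 * mf Y χ + 2 * df X Y χ := by
  have hn : (0 : ℝ) < (Fintype.card G : ℝ) ^ 2 := by
    have := Fintype.card_pos (α := G); positivity
  unfold mf df
  rw [← mul_div_assoc, ← mul_div_assoc, ← add_div]
  apply div_le_div_of_nonneg_right _ hn.le
  rw [mul_sum, mul_sum, ← sum_add_distrib]
  apply sum_le_sum
  intro e _
  have h1 : ∑ g : G, ((X g e : ℝ) : ℂ) * χ g = ∑ g : G, ((Y g e : ℝ) : ℂ) * χ g +
      ∑ g : G, ((X g e - Y g e : ℝ) : ℂ) * χ g := by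
    rw [← sum_add_distrib]
    apply sum_congr rfl
    intro g _
    push_cast
    ring
  rw [h1]
  set a := ∑ g : G, ((Y g e : ℝ) : ℂ) * χ g
  set b := ∑ g : G, ((X g e - Y g e : ℝ) : ℂ) * χ g
  have h2 := norm_add_le a b
  nlinarith [norm_nonneg a, norm_nonneg b, norm_nonneg (a + b), sq_nonneg (‖a‖ - ‖b‖)]

theorem shift_sum (X : G → ι → ℝ) (h : G) (χ : AddChar G ℂ) (e : ι) :
    ∑ g : G, ((X (g + h) e : ℝ) : ℂ) * χ g = χ (-h) * ∑ g : G, ((X g e : ℝ) : ℂ) * χ g := by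
  rw [mul_sum, ← Equiv.sum_comp (Equiv.subRight h)]
  apply sum_congr rfl
  intro g _
  have e1 : (Equiv.subRight h) g = g - h := rfl
  rw [e1, sub_add_cancel, sub_eq_add_neg, AddChar.map_add_eq_mul]
  ring

theorem mf_shift (X : G → ι → ℝ) (h : G) (χ : AddChar G ℂ) :
    mf (fun g => X (g + h)) χ = mf X χ := by
  unfold mf
  congr 1
  apply sum_congr rfl
  intro e _
  rw [shift_sum, norm_mul, χ.norm_apply, one_mul]

theorem df_shift (X : G → ι → ℝ) (h : G) (χ : AddChar G ℂ) :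
    df X (fun g => X (g + h)) χ = mf X χ * Q χ h := by
  unfold mf df
  rw [div_mul_eq_mul_div]
  congr 1
  rw [sum_mul]
  apply sum_congr rfl
  intro e _
  have h2 : ∑ g : G, ((X g e - X (g + h) e : ℝ) : ℂ) * χ g =
      (1 - χ (-h)) * ∑ g : G, ((X g e : ℝ) : ℂ) * χ g := by
    rw [sub_mul, one_mul, ← shift_sum, ← sum_sub_distrib]
    apply sum_congr rfl
    intro g _
    push_cast
    ring
  rw [h2, norm_mul, mul_pow, mul_comm]
  congr 1
  rw [← Q_neg χ h]
  rfl

theorem sum_mf_Q (X : G → ι → ℝ) (h : G) : ∑ χ : AddChar G ℂ, mf X χ * Q χ h =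
    (∑ g : G, ∑ e, (X g e - X (g + h) e) ^ 2) / (Fintype.card G : ℝ) := by
  rw [← sum_df X (fun g => X (g + h))]
  exact sum_congr rfl fun χ _ => (df_shift X h χ).symm

theorem sum_shift (X : G → ι → ℝ) :
    ∑ h : G, (∑ g : G, ∑ e, (X g e - X (g + h) e) ^ 2) / (Fintype.card G : ℝ) =
      2 * Fintype.card G * ∑ χ ∈ univ.erase (0 : AddChar G ℂ), mf X χ := by
  simp_rw [← sum_mf_Q]
  rw [sum_comm]
  simp_rw [← mul_sum]
  rw [← add_sum_erase _ _ (mem_univ (0 : AddChar G ℂ))]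
  have h0 : ∑ z : G, Q (0 : AddChar G ℂ) z = 0 := by simp [Q_zero]
  rw [h0, mul_zero, zero_add, mul_sum]
  apply sum_congr rfl
  intro χ hχ
  rw [sum_Q (ne_of_mem_erase hχ)]
  ring

end spec

section gram

open ComplexConjugate

theorem MPD.real {B I : Type*} [Group B] {M : B → I → I → ℂ} (h : MPD M) :
    ∃ (ι : Type) (_ : Fintype ι) (X : I → B → ι → ℝ),
      ∀ x y i j, ∑ e, (X i x e - X j y e) ^ 2 = DM M (x⁻¹ * y) i j := by
  have hd := h
  obtain ⟨ι, _, U, hU⟩ := h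
  refine ⟨ι ⊕ ι, inferInstance,
    fun i x q => Sum.elim (fun l => (U x i l).re) (fun l => (U x i l).im) q, fun x y i j => ?_⟩
  rw [Fintype.sum_sum_type]
  simp only [Sum.elim_inl, Sum.elim_inr]
  rw [← sum_add_distrib]
  have h1 : ∀ x i, ∑ l, ((U x i l).re ^ 2 + (U x i l).im ^ 2) = (M 1 i i).re := by
    intro x i
    have e1 := hU x x i i
    rw [inv_mul_cancel] at e1
    rw [← e1, Complex.re_sum]
    apply sum_congr rfl
    intro l _
    simp only [Complex.mul_re, Complex.conj_re, Complex.conj_im]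
    ring
  have h2 : (M (x⁻¹ * y) i j).re =
      ∑ l, ((U x i l).re * (U y j l).re + (U x i l).im * (U y j l).im) := by
    rw [← hU x y i j, Complex.re_sum]
    apply sum_congr rfl
    intro l _
    simp only [Complex.mul_re, Complex.conj_re, Complex.conj_im]
    ring
  unfold DM
  rw [h2, ← h1 x i, ← h1 y j, ← sum_add_distrib, mul_sum, ← sum_sub_distrib]
  apply sum_congr rfl
  intro l _
  ring

end gram

end Vale.Agent.P318.H794
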