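import Vale.Agent.P318.H867.Fourier
import Vale.Agent.P318.H794.Kruskal

/-! Spectral weights of a point of a negative-type semimetric under an abelian group action. -/

open Finset

set_option linter.unusedSectionVars false

namespace Vale.Agent.P318.H794

open Vale.Agent.P318.H867

variable {V G ι : Type*} [AddCommGroup G] [Fintype G] [DecidableEq G] [AddAction G V] [Fintype ι]

/-- the sum of `d` over the diagonal orbit -/
def sD (G : Type*) {V : Type*} [AddCommGroup G] [Fintype G] [AddAction G V] (d : V → V → ℝ)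
    (u v : V) : ℝ := ∑ g : G, d (g +ᵥ u) (g +ᵥ v)

/-- spectral weight of the point `u` at the character `χ` -/
noncomputable def mh (x : V → EuclideanSpace ℝ ι) (u : V) (χ : AddChar G ℂ) : ℝ :=
  (∑ e, ‖∑ g : G, ((x (g +ᵥ u) e : ℝ) : ℂ) * χ g‖ ^ 2) / (Fintype.card G : ℝ)

/-- spectral weight of a difference -/
noncomputable def dh (x : V → EuclideanSpace ℝ ι) (u v : V) (χ : AddChar G ℂ) : ℝ :=
  (∑ e, ‖∑ g : G, ((x (g +ᵥ u) e - x (g +ᵥ v) e : ℝ) : ℂ) * χ g‖ ^ 2) / (Fintype.card G : ℝ)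

theorem mh_nonneg (x : V → EuclideanSpace ℝ ι) (u : V) (χ : AddChar G ℂ) : 0 ≤ mh x u χ := by
  unfold mh; positivity

theorem dh_nonneg (x : V → EuclideanSpace ℝ ι) (u v : V) (χ : AddChar G ℂ) : 0 ≤ dh x u v χ := by
  unfold dh; positivity

theorem sum_dh (x : V → EuclideanSpace ℝ ι) (u v : V) :
    ∑ χ : AddChar G ℂ, dh x u v χ = ∑ g : G, ‖x (g +ᵥ u) - x (g +ᵥ v)‖ ^ 2 := by
  have hn : (Fintype.card G : ℝ) ≠ 0 := by
    have := Fintype.card_pos (α := G); positivity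
  unfold dh
  rw [← sum_div, sum_comm, div_eq_iff hn]
  have h : ∀ e, ∑ χ : AddChar G ℂ, ‖∑ g : G, ((x (g +ᵥ u) e - x (g +ᵥ v) e : ℝ) : ℂ) * χ g‖ ^ 2 =
      (Fintype.card G : ℝ) * ∑ g : G, (x (g +ᵥ u) e - x (g +ᵥ v) e) ^ 2 := fun e =>
    parseval (fun g => x (g +ᵥ u) e - x (g +ᵥ v) e)
  simp_rw [h]
  rw [← mul_sum, sum_comm, mul_comm]
  congr 1
  apply sum_congr rfl
  intro g _
  rw [EuclideanSpace.norm_sq_eq]
  apply sum_congr rfl
  intro e _
  simp

theorem mh_le (x : V → EuclideanSpace ℝ ι) (u v : V) (χ : AddChar G ℂ) :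
    mh x u χ ≤ 2 * mh x v χ + 2 * dh x u v χ := by
  have hn : (0 : ℝ) < Fintype.card G := by
    have := Fintype.card_pos (α := G); positivity
  unfold mh dh
  rw [← mul_div_assoc, ← mul_div_assoc, ← add_div]
  apply div_le_div_of_nonneg_right _ hn.le
  rw [mul_sum, mul_sum, ← sum_add_distrib]
  apply sum_le_sum
  intro e _
  have h1 : ∑ g : G, ((x (g +ᵥ u) e : ℝ) : ℂ) * χ g = ∑ g : G, ((x (g +ᵥ v) e : ℝ) : ℂ) * χ g +
      ∑ g : G, ((x (g +ᵥ u) e - x (g +ᵥ v) e : ℝ) : ℂ) * χ g := by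
    rw [← sum_add_distrib]
    apply sum_congr rfl
    intro g _
    push_cast
    ring
  rw [h1]
  set a := ∑ g : G, ((x (g +ᵥ v) e : ℝ) : ℂ) * χ g
  set b := ∑ g : G, ((x (g +ᵥ u) e - x (g +ᵥ v) e : ℝ) : ℂ) * χ g
  have h2 := norm_add_le a b
  nlinarith [norm_nonneg a, norm_nonneg b, norm_nonneg (a + b), sq_nonneg (‖a‖ - ‖b‖)]

theorem dh_vadd (x : V → EuclideanSpace ℝ ι) (u : V) (h : G) (χ : AddChar G ℂ) :
    dh x u (h +ᵥ u) χ = mh x u χ * Q χ h := by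
  unfold mh dh
  rw [div_mul_eq_mul_div]
  congr 1
  rw [sum_mul]
  apply sum_congr rfl
  intro e _
  have h1 : ∑ g : G, ((x (g +ᵥ h +ᵥ u) e : ℝ) : ℂ) * χ g =
      χ (-h) * ∑ g : G, ((x (g +ᵥ u) e : ℝ) : ℂ) * χ g := by
    rw [mul_sum, ← Equiv.sum_comp (Equiv.subRight h)]
    apply sum_congr rfl
    intro g _
    have e1 : (Equiv.subRight h) g = g - h := rfl
    rw [e1, ← add_vadd, sub_add_cancel, sub_eq_add_neg, AddChar.map_add_eq_mul]
    ring
  have h2 : ∑ g : G, ((x (g +ᵥ u) e - x (g +ᵥ h +ᵥ u) e : ℝ) : ℂ) * χ g =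
      (1 - χ (-h)) * ∑ g : G, ((x (g +ᵥ u) e : ℝ) : ℂ) * χ g := by
    rw [sub_mul, one_mul, ← h1, ← sum_sub_distrib]
    apply sum_congr rfl
    intro g _
    push_cast
    ring
  rw [h2, norm_mul, mul_pow, mul_comm]
  congr 1
  rw [← Q_neg χ h]
  rfl

variable {d : V → V → ℝ} {x : V → EuclideanSpace ℝ ι}

theorem sum_dh' (hd : ∀ u v, d u v = ‖x u - x v‖ ^ 2) (u v : V) :
    ∑ χ : AddChar G ℂ, dh x u v χ = sD G d u v := by
  rw [sum_dh]
  exact sum_congr rfl fun g _ => (hd _ _).symm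

theorem sD_vadd (hd : ∀ u v, d u v = ‖x u - x v‖ ^ 2) (u : V) (h : G) :
    sD G d u (h +ᵥ u) = ∑ χ : AddChar G ℂ, mh x u χ * Q χ h := by
  rw [← sum_dh' hd]
  exact sum_congr rfl fun χ _ => dh_vadd x u h χ

theorem invMetric_sD (hd : ∀ u v, d u v = ‖x u - x v‖ ^ 2) (htri : ∀ u v w, d u w ≤ d u v + d v w) :
    InvMetric G (sD G d) where
  self := fun u => by simp [sD, hd]
  symm := fun u v => by
    unfold sD
    exact sum_congr rfl fun g _ => by rw [hd, hd, norm_sub_rev]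
  nonneg := fun u v => by
    unfold sD
    exact sum_nonneg fun g _ => by rw [hd]; positivity
  tri := fun u v w => by
    unfold sD
    rw [← sum_add_distrib]
    exact sum_le_sum fun g _ => htri _ _ _
  inv := fun h u v => by
    unfold sD
    rw [← Equiv.sum_comp (Equiv.addRight h) (fun g => d (g +ᵥ u) (g +ᵥ v))]
    exact sum_congr rfl fun g _ => by
      rw [show (Equiv.addRight h) g = g + h from rfl, add_vadd, add_vadd]

/-- total weight of the nontrivial characters -/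
theorem sum_sD (hd : ∀ u v, d u v = ‖x u - x v‖ ^ 2) (u : V) :
    ∑ h : G, sD G d u (h +ᵥ u) =
      2 * Fintype.card G * ∑ χ ∈ univ.erase (0 : AddChar G ℂ), mh x u χ := by
  simp_rw [sD_vadd hd]
  rw [sum_comm]
  simp_rw [← mul_sum]
  rw [← add_sum_erase _ _ (mem_univ (0 : AddChar G ℂ))]
  have h0 : ∑ z : G, Q (0 : AddChar G ℂ) z = 0 := by simp [Q_zero]
  rw [h0, mul_zero, zero_add, mul_sum]
  apply sum_congr rfl
  intro χ hχ
  rw [sum_Q (ne_of_mem_erase hχ)]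
  ring

/-- invariant capacities -/
theorem sum_c_sD [Fintype V] {c : V → V → ℝ} (hinv : ∀ (g : G) u v, c (g +ᵥ u) (g +ᵥ v) = c u v) :
    ∑ u, ∑ v, c u v * sD G d u v = Fintype.card G * ∑ u, ∑ v, c u v * d u v := by
  unfold sD
  have h1 : ∀ g : G, ∑ u, ∑ v, c u v * d (g +ᵥ u) (g +ᵥ v) = ∑ u, ∑ v, c u v * d u v := by
    intro g
    rw [← Equiv.sum_comp (AddAction.toPerm g) (fun u => ∑ v, c u v * d u v)]
    apply sum_congr rfl; intro u _
    rw [← Equiv.sum_comp (AddAction.toPerm g) (fun v => c ((AddAction.toPerm g) u) v * d _ v)]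
    apply sum_congr rfl; intro v _
    simp only [AddAction.toPerm_apply]
    rw [hinv]
  simp_rw [mul_sum]
  calc ∑ u, ∑ v, ∑ g : G, c u v * d (g +ᵥ u) (g +ᵥ v)
      = ∑ u, ∑ g : G, ∑ v, c u v * d (g +ᵥ u) (g +ᵥ v) :=
        sum_congr rfl fun u _ => sum_comm
    _ = ∑ g : G, ∑ u, ∑ v, c u v * d (g +ᵥ u) (g +ᵥ v) := sum_comm
    _ = ∑ g : G, ∑ u, ∑ v, c u v * d u v := sum_congr rfl fun g _ => h1 g
    _ = _ := by
      rw [sum_const, card_univ, nsmul_eq_mul, mul_sum]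
      apply sum_congr rfl; intro u _
      rw [mul_sum]

end Vale.Agent.P318.H794
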