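import Vale.Agent.P318.H867.Main
import Vale.Agent.P318.H794.Main
import Vale.Agent.P318.H794.EndM

/-! Transfer of an averaged semimetric on the orbits of a nilpotent group to an abelian
quotient. -/

open Finset

set_option linter.unusedSectionVars false

namespace Vale.Agent.P318.H794

open Vale.Agent.P318.H867

/-- the sum of `d` over the group -/
def sM (G : Type*) {V : Type*} [Group G] [Fintype G] [MulAction G V] (d : V → V → ℝ)
    (u v : V) : ℝ := ∑ g : G, d (g • u) (g • v)

section avg

variable {V G : Type*} [Group G] [Fintype G] [MulAction G V]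

theorem invM_sM {d : V → V → ℝ} {ι : Type*} [Fintype ι] {x : V → EuclideanSpace ℝ ι}
    (hd : ∀ u v, d u v = ‖x u - x v‖ ^ 2) (htri : ∀ u v w, d u w ≤ d u v + d v w) :
    InvM G (sM G d) where
  self := fun u => by simp [sM, hd]
  symm := fun u v => by
    unfold sM
    exact sum_congr rfl fun g _ => by rw [hd, hd, norm_sub_rev]
  nonneg := fun u v => by
    unfold sM
    exact sum_nonneg fun g _ => by rw [hd]; positivity
  tri := fun u v w => by
    unfold sM
    rw [← sum_add_distrib]
    exact sum_le_sum fun g _ => htri _ _ _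
  inv := fun h u v => by
    unfold sM
    rw [← Equiv.sum_comp (Equiv.mulRight h) (fun g => d (g • u) (g • v))]
    exact sum_congr rfl fun g _ => by
      rw [show (Equiv.mulRight h) g = g * h from rfl, mul_smul, mul_smul]

/-- invariant capacities -/
theorem sum_c_sM [Fintype V] {c d : V → V → ℝ} (hinv : ∀ (g : G) u v, c (g • u) (g • v) = c u v) :
    ∑ u, ∑ v, c u v * sM G d u v = Fintype.card G * ∑ u, ∑ v, c u v * d u v := by
  unfold sM
  have h1 : ∀ g : G, ∑ u, ∑ v, c u v * d (g • u) (g • v) = ∑ u, ∑ v, c u v * d u v := by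
    intro g
    rw [← Equiv.sum_comp (MulAction.toPerm g) (fun u => ∑ v, c u v * d u v)]
    apply sum_congr rfl; intro u _
    rw [← Equiv.sum_comp (MulAction.toPerm g) (fun v => c ((MulAction.toPerm g) u) v * d _ v)]
    apply sum_congr rfl; intro v _
    simp only [MulAction.toPerm_apply]
    rw [hinv]
  simp_rw [mul_sum]
  calc ∑ u, ∑ v, ∑ g : G, c u v * d (g • u) (g • v)
      = ∑ u, ∑ g : G, ∑ v, c u v * d (g • u) (g • v) :=
        sum_congr rfl fun u _ => sum_comm
    _ = ∑ g : G, ∑ u, ∑ v, c u v * d (g • u) (g • v) := sum_comm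
    _ = ∑ g : G, ∑ u, ∑ v, c u v * d u v := sum_congr rfl fun g _ => h1 g
    _ = _ := by
      rw [sum_const, card_univ, nsmul_eq_mul, mul_sum]
      apply sum_congr rfl; intro u _
      rw [mul_sum]

/-- from the invariant sums to a feasible `d` -/
theorem phi_le_of_roundN [Fintype V] [DecidableEq V] {c : V → V → ℝ}
    (hinv : ∀ (g : G) u v, c (g • u) (g • v) = c u v)
    {d : V → V → ℝ} {R : ℝ}
    (h : phi c * ∑ u, ∑ v, sM G d u v ≤ R * ∑ u, ∑ v, c u v * sM G d u v)
    (h1 : (∑ u, ∑ v, d u v) / 2 = 1) : phi c ≤ R * ((∑ u, ∑ v, c u v * d u v) / 2) := by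
  have hG0 : (0 : ℝ) < Fintype.card G := by exact_mod_cast Fintype.card_pos
  have e1 := sum_c_sM (G := G) (c := c) (d := d) hinv
  have e2 := sum_c_sM (G := G) (c := fun _ _ : V => (1 : ℝ)) (d := d) (fun _ _ _ => rfl)
  simp only [one_mul] at e2
  rw [e1, e2] at h
  have h2 : ∑ u, ∑ v, d u v = 2 := by linarith
  rw [h2] at h
  have h3 : (Fintype.card G : ℝ) * phi c ≤
      (Fintype.card G : ℝ) * (R * ((∑ u, ∑ v, c u v * d u v) / 2)) := by
    linarith
  exact le_of_mul_le_mul_left h3 hG0

theorem N_mul {D : V → V → ℝ} (hD : InvM G D) (u : V) (g h : G) :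
    D u ((g * h) • u) ≤ D u (g • u) + D u (h • u) := by
  have h1 := hD.tri u (g • u) ((g * h) • u)
  have h2 : D (g • u) ((g * h) • u) = D u (h • u) := by rw [mul_smul, hD.inv]
  rw [h2] at h1
  exact h1

end avg

/-- the matrix of inner products over the group -/
noncomputable def Mt {V G I : Type*} [Fintype V] [Group G] [Fintype G] [MulAction G V]
    (x : V → EuclideanSpace ℝ V) (y : I → V) (g : G) (i j : I) : ℂ :=
  ((∑ h : G, ∑ e, x (h • y i) e * x (h • g • y j) e : ℝ) : ℂ)

theorem mpd_Mt {V G : Type} {I : Type*} [Fintype V] [Group G] [Fintype G] [MulAction G V]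
    (x : V → EuclideanSpace ℝ V) (y : I → V) : MPD (Mt (G := G) x y) := by
  refine ⟨G × V, inferInstance, fun a i q => ((x (q.1 • a • y i) q.2 : ℝ) : ℂ),
    fun a b i j => ?_⟩
  rw [Fintype.sum_prod_type]
  simp only [Complex.conj_ofReal]
  unfold Mt
  push_cast
  rw [← Equiv.sum_comp (Equiv.mulRight a)
    (fun h => ∑ e, ((x (h • y i) e : ℝ) : ℂ) * ((x (h • (a⁻¹ * b) • y j) e : ℝ) : ℂ))]
  refine sum_congr rfl fun h _ => sum_congr rfl fun e _ => ?_
  rw [show (Equiv.mulRight a) h = h * a from rfl, mul_smul h a, mul_smul h a,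
    ← mul_smul a (a⁻¹ * b), mul_inv_cancel_left]

theorem dm_Mt {V G I : Type*} [Fintype V] [Group G] [Fintype G] [MulAction G V]
    {d : V → V → ℝ} {x : V → EuclideanSpace ℝ V} (hd : ∀ u v, d u v = ‖x u - x v‖ ^ 2)
    (y : I → V) (g : G) (i j : I) : DM (Mt (G := G) x y) g i j = sM G d (y i) (g • y j) := by
  have e1 : ∀ i, (Mt (G := G) x y 1 i i).re = ∑ h : G, ∑ e, x (h • y i) e ^ 2 := by
    intro i
    unfold Mt
    rw [Complex.ofReal_re]
    refine sum_congr rfl fun h _ => sum_congr rfl fun e _ => ?_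
    rw [one_smul]
    ring
  have e2 : ∑ h : G, ∑ e, x (h • g • y j) e ^ 2 = ∑ h : G, ∑ e, x (h • y j) e ^ 2 := by
    rw [← Equiv.sum_comp (Equiv.mulRight g) (fun h => ∑ e, x (h • y j) e ^ 2)]
    refine sum_congr rfl fun h _ => ?_
    rw [show (Equiv.mulRight g) h = h * g from rfl, mul_smul]
  have e3 : (Mt (G := G) x y g i j).re = ∑ h : G, ∑ e, x (h • y i) e * x (h • g • y j) e :=
    Complex.ofReal_re _
  unfold DM sM
  rw [e1, e1, e3, ← e2, ← sum_add_distrib, mul_sum, ← sum_sub_distrib]
  refine sum_congr rfl fun h _ => ?_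
  rw [hd, EuclideanSpace.norm_sq_eq, ← sum_add_distrib, mul_sum, ← sum_sub_distrib]
  refine sum_congr rfl fun e _ => ?_
  simp only [PiLp.sub_apply, Real.norm_eq_abs, sq_abs]
  ring

/-- transfer to an abelian quotient -/
theorem transfer {V G : Type} {I : Type*} [Fintype V] [Group G] [Fintype G] [MulAction G V]
    {κ : ℕ} (hG : (⊤ : Subgroup G).lowerCentralSeries (κ + 1) = ⊥)
    {d : V → V → ℝ} {x : V → EuclideanSpace ℝ V} (hd : ∀ u v, d u v = ‖x u - x v‖ ^ 2)
    (htri : ∀ u v w, d u w ≤ d u v + d v w) (y : I → V) :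
    ∃ (B : Type) (_ : AddCommGroup B) (_ : Fintype B) (_ : DecidableEq B) (P : G → B),
      (∀ g h, P (g * h) = P g + P h) ∧ Function.Surjective P ∧
      (∀ b : B, Monoid.exponent (Abelianization G) • b = 0) ∧
      ∃ (ι : Type) (_ : Fintype ι) (X : I → B → ι → ℝ),
        (∀ (i j : I) (s t : G),
          (∑ b : B, ∑ e, (X i (b + P s) e - X j (b + P t) e) ^ 2) / (Fintype.card B : ℝ) ≤
            2 ^ κ * sM G d (s • y i) (t • y j)) ∧
        (∀ i, ∑ g : G, sM G d (y i) (g • y i) ≤
          2 ^ κ * (2 * (Fintype.card G : ℝ) *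
            ∑ χ ∈ univ.erase (0 : AddChar B ℂ), mf (X i) χ)) := by
  classical
  have hinvD := invM_sM (G := G) hd htri
  obtain ⟨B, _, _, p, hp, M', hM', ha, hb⟩ := mnilp κ G hG (mpd_Mt (G := G) x y)
  obtain ⟨ι, _, X, hX⟩ := hM'.real
  have hB0 : (0 : ℝ) < Fintype.card B := by exact_mod_cast Fintype.card_pos
  have hcardB : (Fintype.card (Additive B) : ℝ) = Fintype.card B := by
    rw [Fintype.card_congr Additive.toMul]
  refine ⟨Additive B, inferInstance, inferInstance, inferInstance,
    fun g => Additive.ofMul (p g), ?_, ?_, ?_, ι, inferInstance,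
    fun i b => X i (Additive.toMul b), ?_, ?_⟩
  · intro g h
    exact congrArg Additive.ofMul (map_mul p g h)
  · intro b
    obtain ⟨g, hg⟩ := hp (Additive.toMul b)
    exact ⟨g, congrArg Additive.ofMul hg⟩
  · intro b
    obtain ⟨g, hg⟩ := hp (Additive.toMul b)
    have h1 : (Additive.toMul b) ^ Monoid.exponent (Abelianization G) = 1 := by
      rw [← hg, ← Abelianization.lift_apply_of p g, ← map_pow, Monoid.pow_exponent_eq_one, map_one]
    exact congrArg Additive.ofMul h1
  · intro i j s t
    have h1 : ∀ b : Additive B, ∑ e, (X i (Additive.toMul (b + Additive.ofMul (p s))) e -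
        X j (Additive.toMul (b + Additive.ofMul (p t))) e) ^ 2 = DM M' (p (s⁻¹ * t)) i j := by
      intro b
      rw [hX]
      congr 1
      rw [toMul_add, toMul_add, toMul_ofMul, toMul_ofMul, map_mul, map_inv]
      group
    simp_rw [h1]
    rw [sum_const, card_univ, nsmul_eq_mul, hcardB, mul_div_assoc, mul_div_cancel₀ _ hB0.ne']
    refine (ha (s⁻¹ * t) i j).trans (le_of_eq ?_)
    rw [dm_Mt hd, mul_smul, ← hinvD.inv s (y i), smul_inv_smul]
  · intro i
    obtain ⟨c, hcs⟩ := H612.hom_sum p hp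
    have h1 : ∑ g : G, sM G d (y i) (g • y i) =
        2 * ∑ g : G, ((Mt (G := G) x y 1 i i).re - (Mt (G := G) x y g i i).re) := by
      rw [mul_sum]
      refine sum_congr rfl fun g _ => ?_
      rw [← dm_Mt hd]
      unfold DM
      ring
    have h2 : ∑ g : G, ((M' 1 i i).re - (M' (p g) i i).re) =
        c * ∑ b : B, ((M' 1 i i).re - (M' b i i).re) :=
      hcs (fun b => (M' 1 i i).re - (M' b i i).re)
    have h3 : (Fintype.card G : ℝ) = c * Fintype.card B := by
      have := hcs (fun _ => 1)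
      simpa using this
    have h4 : 2 * ∑ b : B, ((M' 1 i i).re - (M' b i i).re) =
        2 * (Fintype.card B : ℝ) *
          ∑ χ ∈ univ.erase (0 : AddChar (Additive B) ℂ), mf (fun b => X i (Additive.toMul b)) χ := by
      have e1 := sum_shift (G := Additive B) (fun b => X i (Additive.toMul b))
      have e2 : ∀ h : Additive B, (∑ g : Additive B, ∑ e,
          (X i (Additive.toMul g) e - X i (Additive.toMul (g + h)) e) ^ 2) /
            (Fintype.card (Additive B) : ℝ) = DM M' (Additive.toMul h) i i := by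
        intro h
        have e3 : ∀ g : Additive B, ∑ e,
          (X i (Additive.toMul g) e - X i (Additive.toMul (g + h)) e) ^ 2 =
            DM M' (Additive.toMul h) i i := by
          intro g
          rw [hX]
          congr 1
          rw [toMul_add]
          group
        simp_rw [e3]
        rw [sum_const, card_univ, nsmul_eq_mul, hcardB, mul_div_assoc, mul_div_cancel₀ _ hB0.ne']
      simp_rw [e2] at e1
      rw [hcardB] at e1
      rw [← e1, mul_sum, ← Equiv.sum_comp (Additive.toMul (α := B))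
        (fun b => 2 * ((M' 1 i i).re - (M' b i i).re))]
      refine sum_congr rfl fun b _ => ?_
      unfold DM
      ring
    rw [h1]
    calc 2 * ∑ g : G, ((Mt (G := G) x y 1 i i).re - (Mt (G := G) x y g i i).re)
        ≤ 2 * (2 ^ κ * ∑ g : G, ((M' 1 i i).re - (M' (p g) i i).re)) :=
          mul_le_mul_of_nonneg_left (hb i) (by norm_num)
      _ = 2 ^ κ * (c * (2 * ∑ b : B, ((M' 1 i i).re - (M' b i i).re))) := by rw [h2]; ring
      _ = _ := by rw [h4, h3]; ring

end Vale.Agent.P318.H794
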